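import Vale.Agent.P154.DE.EngD
import Vale.Agent.P154.DE.WqP
import Vale.Agent.P154.DE.StP
import Vale.Agent.P154.DE.Pw9_11_30
import Vale.Agent.P154.DE.Pw9_10_56
import Vale.Agent.P154.DE.Tk1_2_9_11_30_9_11_10
import Vale.Agent.P154.DE.Tk1_2_9_11_30_9_10_20
import Vale.Agent.P154.DE.Tk1_2_9_10_56_9_10_20

/-!
# Steps 0 to 36
-/

namespace Vale.Agent.P154.DE

set_option maxRecDepth 100000

theorem ckP_1 : stN 81 10 30 pw_9_11_30 stP_0 10 stP_1 wqP tk1_2_9_11_30_9_11_10 tk1_2_9_11_30_9_11_10E tk1_2_9_11_30_9_11_10V = true := by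
  decide +kernel

theorem ckP_2 : stN 81 10 30 pw_9_11_30 stP_1 10 stP_2 wqP tk1_2_9_11_30_9_11_10 tk1_2_9_11_30_9_11_10E tk1_2_9_11_30_9_11_10V = true := by
  decide +kernel

theorem ckP_3 : stN 81 10 30 pw_9_11_30 stP_2 10 stP_3 wqP tk1_2_9_11_30_9_11_10 tk1_2_9_11_30_9_11_10E tk1_2_9_11_30_9_11_10V = true := by
  decide +kernel

theorem ckP_4 : stN 81 10 30 pw_9_11_30 stP_3 10 stP_4 wqP tk1_2_9_11_30_9_11_10 tk1_2_9_11_30_9_11_10E tk1_2_9_11_30_9_11_10V = true := by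
  decide +kernel

theorem ckP_5 : stN 81 10 30 pw_9_11_30 stP_4 10 stP_5 wqP tk1_2_9_11_30_9_11_10 tk1_2_9_11_30_9_11_10E tk1_2_9_11_30_9_11_10V = true := by
  decide +kernel

theorem ckP_6 : stN 81 10 30 pw_9_11_30 stP_5 10 stP_6 wqP tk1_2_9_11_30_9_11_10 tk1_2_9_11_30_9_11_10E tk1_2_9_11_30_9_11_10V = true := by
  decide +kernel

theorem ckP_7 : stN 81 10 30 pw_9_11_30 stP_6 10 stP_7 wqP tk1_2_9_11_30_9_11_10 tk1_2_9_11_30_9_11_10E tk1_2_9_11_30_9_11_10V = true := by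
  decide +kernel

theorem ckP_8 : stN 81 10 30 pw_9_11_30 stP_7 10 stP_8 wqP tk1_2_9_11_30_9_11_10 tk1_2_9_11_30_9_11_10E tk1_2_9_11_30_9_11_10V = true := by
  decide +kernel

theorem ckP_9 : stN 81 10 30 pw_9_11_30 stP_8 10 stP_9 wqP tk1_2_9_11_30_9_11_10 tk1_2_9_11_30_9_11_10E tk1_2_9_11_30_9_11_10V = true := by
  decide +kernel

theorem ckP_10 : stN 81 10 30 pw_9_11_30 stP_9 10 stP_10 wqP tk1_2_9_11_30_9_11_10 tk1_2_9_11_30_9_11_10E tk1_2_9_11_30_9_11_10V = true := by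
  decide +kernel

theorem ckP_11 : stN 81 10 30 pw_9_11_30 stP_10 10 stP_11 wqP tk1_2_9_11_30_9_11_10 tk1_2_9_11_30_9_11_10E tk1_2_9_11_30_9_11_10V = true := by
  decide +kernel

theorem ckP_12 : stN 81 10 30 pw_9_11_30 stP_11 10 stP_12 wqP tk1_2_9_11_30_9_11_10 tk1_2_9_11_30_9_11_10E tk1_2_9_11_30_9_11_10V = true := by
  decide +kernel

theorem ckP_13 : stN 81 10 30 pw_9_11_30 stP_12 10 stP_13 wqP tk1_2_9_11_30_9_11_10 tk1_2_9_11_30_9_11_10E tk1_2_9_11_30_9_11_10V = true := by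
  decide +kernel

theorem ckP_14 : stN 81 10 30 pw_9_11_30 stP_13 10 stP_14 wqP tk1_2_9_11_30_9_11_10 tk1_2_9_11_30_9_11_10E tk1_2_9_11_30_9_11_10V = true := by
  decide +kernel

theorem ckP_15 : stN 81 10 30 pw_9_11_30 stP_14 10 stP_15 wqP tk1_2_9_11_30_9_11_10 tk1_2_9_11_30_9_11_10E tk1_2_9_11_30_9_11_10V = true := by
  decide +kernel

theorem ckP_16 : stN 81 10 30 pw_9_11_30 stP_15 10 stP_16 wqP tk1_2_9_11_30_9_11_10 tk1_2_9_11_30_9_11_10E tk1_2_9_11_30_9_11_10V = true := by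
  decide +kernel

theorem ckP_17 : stN 81 10 30 pw_9_11_30 stP_16 10 stP_17 wqP tk1_2_9_11_30_9_11_10 tk1_2_9_11_30_9_11_10E tk1_2_9_11_30_9_11_10V = true := by
  decide +kernel

theorem ckP_18 : stN 81 10 30 pw_9_11_30 stP_17 10 stP_18 wqP tk1_2_9_11_30_9_11_10 tk1_2_9_11_30_9_11_10E tk1_2_9_11_30_9_11_10V = true := by
  decide +kernel

theorem ckP_19 : stN 81 10 30 pw_9_11_30 stP_18 10 stP_19 wqP tk1_2_9_11_30_9_11_10 tk1_2_9_11_30_9_11_10E tk1_2_9_11_30_9_11_10V = true := by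
  decide +kernel

theorem ckP_20 : stN 81 10 30 pw_9_11_30 stP_19 10 stP_20 wqP tk1_2_9_11_30_9_11_10 tk1_2_9_11_30_9_11_10E tk1_2_9_11_30_9_11_10V = true := by
  decide +kernel

theorem ckP_21 : stN 81 10 30 pw_9_11_30 stP_20 10 stP_21 wqP tk1_2_9_11_30_9_11_10 tk1_2_9_11_30_9_11_10E tk1_2_9_11_30_9_11_10V = true := by
  decide +kernel

theorem ckP_22 : stN 81 10 30 pw_9_11_30 stP_21 10 stP_22 wqP tk1_2_9_11_30_9_11_10 tk1_2_9_11_30_9_11_10E tk1_2_9_11_30_9_11_10V = true := by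
  decide +kernel

theorem ckP_23 : stN 81 10 30 pw_9_11_30 stP_22 10 stP_23 wqP tk1_2_9_11_30_9_11_10 tk1_2_9_11_30_9_11_10E tk1_2_9_11_30_9_11_10V = true := by
  decide +kernel

theorem ckP_24 : stN 81 10 30 pw_9_11_30 stP_23 10 stP_24 wqP tk1_2_9_11_30_9_11_10 tk1_2_9_11_30_9_11_10E tk1_2_9_11_30_9_11_10V = true := by
  decide +kernel

theorem ckP_25 : stN 81 10 30 pw_9_11_30 stP_24 10 stP_25 wqP tk1_2_9_11_30_9_11_10 tk1_2_9_11_30_9_11_10E tk1_2_9_11_30_9_11_10V = true := by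
  decide +kernel

theorem ckP_26 : stN 81 10 30 pw_9_11_30 stP_25 10 stP_26 wqP tk1_2_9_11_30_9_11_10 tk1_2_9_11_30_9_11_10E tk1_2_9_11_30_9_11_10V = true := by
  decide +kernel

theorem ckP_27 : stN 81 10 30 pw_9_11_30 stP_26 10 stP_27 wqP tk1_2_9_11_30_9_11_10 tk1_2_9_11_30_9_11_10E tk1_2_9_11_30_9_11_10V = true := by
  decide +kernel

theorem ckP_28 : stN 81 10 30 pw_9_11_30 stP_27 10 stP_28 wqP tk1_2_9_11_30_9_11_10 tk1_2_9_11_30_9_11_10E tk1_2_9_11_30_9_11_10V = true := by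
  decide +kernel

theorem ckP_29 : stN 81 10 30 pw_9_11_30 stP_28 10 stP_29 wqP tk1_2_9_11_30_9_11_10 tk1_2_9_11_30_9_11_10E tk1_2_9_11_30_9_11_10V = true := by
  decide +kernel

theorem ckP_30 : stN 81 10 30 pw_9_11_30 stP_29 10 stP_30 wqP tk1_2_9_11_30_9_11_10 tk1_2_9_11_30_9_11_10E tk1_2_9_11_30_9_11_10V = true := by
  decide +kernel

theorem ckP_31 : stN 81 10 30 pw_9_11_30 stP_30 10 stP_31 wqP tk1_2_9_11_30_9_11_10 tk1_2_9_11_30_9_11_10E tk1_2_9_11_30_9_11_10V = true := by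
  decide +kernel

theorem ckP_32 : stN 81 10 30 pw_9_11_30 stP_31 10 stP_32 wqP tk1_2_9_11_30_9_11_10 tk1_2_9_11_30_9_11_10E tk1_2_9_11_30_9_11_10V = true := by
  decide +kernel

theorem ckP_33 : stN 81 10 30 pw_9_11_30 stP_32 10 stP_33 wqP tk1_2_9_11_30_9_11_10 tk1_2_9_11_30_9_11_10E tk1_2_9_11_30_9_11_10V = true := by
  decide +kernel

theorem ckP_34 : stN 81 10 30 pw_9_11_30 stP_33 10 stP_34 wqP tk1_2_9_11_30_9_11_10 tk1_2_9_11_30_9_11_10E tk1_2_9_11_30_9_11_10V = true := by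
  decide +kernel

theorem ckP_35 : stN 81 10 30 pw_9_11_30 stP_34 20 stP_35 wqP tk1_2_9_11_30_9_10_20 tk1_2_9_11_30_9_10_20E tk1_2_9_11_30_9_10_20V = true := by
  decide +kernel

theorem ckP_36 : stN 153 20 56 pw_9_10_56 stP_35 20 stP_36 wqP tk1_2_9_10_56_9_10_20 tk1_2_9_10_56_9_10_20E tk1_2_9_10_56_9_10_20V = true := by
  decide +kernel

end Vale.Agent.P154.DE
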