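import Vale.Agent.P154.DE.Pois2
import Vale.Agent.P154.DE.SpP0
import Vale.Agent.P154.DE.SpP1
import Vale.Agent.P154.DE.SpP2
import Vale.Agent.P154.DE.SpP3
import Vale.Agent.P154.DE.SpP4
import Vale.Agent.P154.DE.SpP5
import Vale.Agent.P154.DE.SpP6
import Vale.Agent.P154.DE.SpP7
import Vale.Agent.P154.DE.SpP8
import Vale.Agent.P154.DE.SpP9
import Vale.Agent.P154.DE.Cp9_11_30
import Vale.Agent.P154.DE.Cp9_10_56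
import Vale.Agent.P154.DE.Cp14_15_70
import Vale.Agent.P154.DE.Ctk1_2_9_11_30_9_11_10
import Vale.Agent.P154.DE.Ctk1_2_9_11_30_9_10_20
import Vale.Agent.P154.DE.Ctk1_2_9_10_56_9_10_20
import Vale.Agent.P154.DE.Ctk1_2_9_10_56_14_15_24
import Vale.Agent.P154.DE.Ctk1_2_14_15_70_14_15_24

/-!
# Chain of the box P: channel parameter at most 1/2, at least 99/200
-/

namespace Vale.Agent.P154.DE

noncomputable section NC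

open Vale.Agent.P154.Up
open scoped ENNReal NNReal

theorem ewP : ((20278362658145877 : ℕ) : ℝ) / ((1152921504606846976 : ℕ) : ℝ) ≤ Real.exp (-(((40405 : ℕ) : ℝ) / ((10000 : ℕ) : ℝ))) := by
  refine exp_low (x := 8081 / 16000) (u := 16570890852923 / 10000000000000) (by norm_num) (by norm_num) (by norm_num) ?_ ?_
  · norm_num [Finset.sum_range_succ, Nat.factorial]
  · norm_num

set_option maxRecDepth 100000 in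
theorem woP : WtOK wqP (((40405 : ℕ) : ℝ) / ((10000 : ℕ) : ℝ)) :=
  ⟨wts_ok (Dn := 40405) (Dd := 10000) (by norm_num) (by norm_num) (by norm_num) rfl ewP (by decide +kernel),
    by decide +kernel⟩

theorem ptP_0 : PT (thr 9 11) 30 32 pw_9_11_30 30 :=
  PT_of_chk (by norm_num) cp_9_11_30

theorem ptP_1 : PT (thr 9 10) 30 32 pw_9_10_56 56 :=
  PT_of_chk (by norm_num) cp_9_10_56

theorem ptP_2 : PT (thr 14 15) 30 32 pw_14_15_70 70 :=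
  PT_of_chk (by norm_num) cp_14_15_70

theorem tbP_00 : TbOK 1 2 pw_9_11_30 30 pw_9_11_30 10 tk1_2_9_11_30_9_11_10 tk1_2_9_11_30_9_11_10E tk1_2_9_11_30_9_11_10V :=
  ⟨c1tk1_2_9_11_30_9_11_10, (TabS.toTab_len _ _).trans c2tk1_2_9_11_30_9_11_10, c3tk1_2_9_11_30_9_11_10, c4tk1_2_9_11_30_9_11_10, c5tk1_2_9_11_30_9_11_10⟩

theorem sxP_00 {n S S' : ℕ} (hS : PoisOK 1 2 (((40405 : ℕ) : ℝ) / ((10000 : ℕ) : ℝ)) (thr 9 11) 10 n S)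
    (h : stN 81 10 30 pw_9_11_30 S 10 S' wqP tk1_2_9_11_30_9_11_10 tk1_2_9_11_30_9_11_10E tk1_2_9_11_30_9_11_10V = true) :
    PoisOK 1 2 (((40405 : ℕ) : ℝ) / ((10000 : ℕ) : ℝ)) (thr 9 11) 10 (n + 1) S' :=
  pois_step2 (by norm_num) (by norm_num) (by norm_num) (by norm_num) ptP_0 (ptP_0.mono (by norm_num))
    tbP_00 (by norm_num) (by norm_num) (by norm_num) (by norm_num) woP hS h

theorem tbP_01 : TbOK 1 2 pw_9_11_30 30 pw_9_10_56 20 tk1_2_9_11_30_9_10_20 tk1_2_9_11_30_9_10_20E tk1_2_9_11_30_9_10_20V :=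
  ⟨c1tk1_2_9_11_30_9_10_20, (TabS.toTab_len _ _).trans c2tk1_2_9_11_30_9_10_20, c3tk1_2_9_11_30_9_10_20, c4tk1_2_9_11_30_9_10_20, c5tk1_2_9_11_30_9_10_20⟩

theorem sxP_01 {n S S' : ℕ} (hS : PoisOK 1 2 (((40405 : ℕ) : ℝ) / ((10000 : ℕ) : ℝ)) (thr 9 11) 10 n S)
    (h : stN 81 10 30 pw_9_11_30 S 20 S' wqP tk1_2_9_11_30_9_10_20 tk1_2_9_11_30_9_10_20E tk1_2_9_11_30_9_10_20V = true) :
    PoisOK 1 2 (((40405 : ℕ) : ℝ) / ((10000 : ℕ) : ℝ)) (thr 9 10) 20 (n + 1) S' :=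
  pois_step2 (by norm_num) (by norm_num) (by norm_num) (by norm_num) ptP_0 (ptP_1.mono (by norm_num))
    tbP_01 (by norm_num) (by norm_num) (by norm_num) (by norm_num) woP hS h

theorem tbP_11 : TbOK 1 2 pw_9_10_56 56 pw_9_10_56 20 tk1_2_9_10_56_9_10_20 tk1_2_9_10_56_9_10_20E tk1_2_9_10_56_9_10_20V :=
  ⟨c1tk1_2_9_10_56_9_10_20, (TabS.toTab_len _ _).trans c2tk1_2_9_10_56_9_10_20, c3tk1_2_9_10_56_9_10_20, c4tk1_2_9_10_56_9_10_20, c5tk1_2_9_10_56_9_10_20⟩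

theorem sxP_11 {n S S' : ℕ} (hS : PoisOK 1 2 (((40405 : ℕ) : ℝ) / ((10000 : ℕ) : ℝ)) (thr 9 10) 20 n S)
    (h : stN 153 20 56 pw_9_10_56 S 20 S' wqP tk1_2_9_10_56_9_10_20 tk1_2_9_10_56_9_10_20E tk1_2_9_10_56_9_10_20V = true) :
    PoisOK 1 2 (((40405 : ℕ) : ℝ) / ((10000 : ℕ) : ℝ)) (thr 9 10) 20 (n + 1) S' :=
  pois_step2 (by norm_num) (by norm_num) (by norm_num) (by norm_num) ptP_1 (ptP_1.mono (by norm_num))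
    tbP_11 (by norm_num) (by norm_num) (by norm_num) (by norm_num) woP hS h

theorem tbP_12 : TbOK 1 2 pw_9_10_56 56 pw_14_15_70 24 tk1_2_9_10_56_14_15_24 tk1_2_9_10_56_14_15_24E tk1_2_9_10_56_14_15_24V :=
  ⟨c1tk1_2_9_10_56_14_15_24, (TabS.toTab_len _ _).trans c2tk1_2_9_10_56_14_15_24, c3tk1_2_9_10_56_14_15_24, c4tk1_2_9_10_56_14_15_24, c5tk1_2_9_10_56_14_15_24⟩

theorem sxP_12 {n S S' : ℕ} (hS : PoisOK 1 2 (((40405 : ℕ) : ℝ) / ((10000 : ℕ) : ℝ)) (thr 9 10) 20 n S)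
    (h : stN 153 20 56 pw_9_10_56 S 24 S' wqP tk1_2_9_10_56_14_15_24 tk1_2_9_10_56_14_15_24E tk1_2_9_10_56_14_15_24V = true) :
    PoisOK 1 2 (((40405 : ℕ) : ℝ) / ((10000 : ℕ) : ℝ)) (thr 14 15) 24 (n + 1) S' :=
  pois_step2 (by norm_num) (by norm_num) (by norm_num) (by norm_num) ptP_1 (ptP_2.mono (by norm_num))
    tbP_12 (by norm_num) (by norm_num) (by norm_num) (by norm_num) woP hS h

theorem tbP_22 : TbOK 1 2 pw_14_15_70 70 pw_14_15_70 24 tk1_2_14_15_70_14_15_24 tk1_2_14_15_70_14_15_24E tk1_2_14_15_70_14_15_24V :=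
  ⟨c1tk1_2_14_15_70_14_15_24, (TabS.toTab_len _ _).trans c2tk1_2_14_15_70_14_15_24, c3tk1_2_14_15_70_14_15_24, c4tk1_2_14_15_70_14_15_24, c5tk1_2_14_15_70_14_15_24⟩

theorem sxP_22 {n S S' : ℕ} (hS : PoisOK 1 2 (((40405 : ℕ) : ℝ) / ((10000 : ℕ) : ℝ)) (thr 14 15) 24 n S)
    (h : stN 189 24 70 pw_14_15_70 S 24 S' wqP tk1_2_14_15_70_14_15_24 tk1_2_14_15_70_14_15_24E tk1_2_14_15_70_14_15_24V = true) :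
    PoisOK 1 2 (((40405 : ℕ) : ℝ) / ((10000 : ℕ) : ℝ)) (thr 14 15) 24 (n + 1) S' :=
  pois_step2 (by norm_num) (by norm_num) (by norm_num) (by norm_num) ptP_2 (ptP_2.mono (by norm_num))
    tbP_22 (by norm_num) (by norm_num) (by norm_num) (by norm_num) woP hS h

theorem okP_0 : PoisOK 1 2 (((40405 : ℕ) : ℝ) / ((10000 : ℕ) : ℝ)) (thr 9 11) 10 0 stP_0 :=
  poisOK_zero _ _ _ _ _

theorem okP_1 : PoisOK 1 2 (((40405 : ℕ) : ℝ) / ((10000 : ℕ) : ℝ)) (thr 9 11) 10 1 stP_1 :=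
  sxP_00 okP_0 ckP_1

theorem okP_2 : PoisOK 1 2 (((40405 : ℕ) : ℝ) / ((10000 : ℕ) : ℝ)) (thr 9 11) 10 2 stP_2 :=
  sxP_00 okP_1 ckP_2

theorem okP_3 : PoisOK 1 2 (((40405 : ℕ) : ℝ) / ((10000 : ℕ) : ℝ)) (thr 9 11) 10 3 stP_3 :=
  sxP_00 okP_2 ckP_3

theorem okP_4 : PoisOK 1 2 (((40405 : ℕ) : ℝ) / ((10000 : ℕ) : ℝ)) (thr 9 11) 10 4 stP_4 :=
  sxP_00 okP_3 ckP_4

theorem okP_5 : PoisOK 1 2 (((40405 : ℕ) : ℝ) / ((10000 : ℕ) : ℝ)) (thr 9 11) 10 5 stP_5 :=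
  sxP_00 okP_4 ckP_5

theorem okP_6 : PoisOK 1 2 (((40405 : ℕ) : ℝ) / ((10000 : ℕ) : ℝ)) (thr 9 11) 10 6 stP_6 :=
  sxP_00 okP_5 ckP_6

theorem okP_7 : PoisOK 1 2 (((40405 : ℕ) : ℝ) / ((10000 : ℕ) : ℝ)) (thr 9 11) 10 7 stP_7 :=
  sxP_00 okP_6 ckP_7

theorem okP_8 : PoisOK 1 2 (((40405 : ℕ) : ℝ) / ((10000 : ℕ) : ℝ)) (thr 9 11) 10 8 stP_8 :=
  sxP_00 okP_7 ckP_8

theorem okP_9 : PoisOK 1 2 (((40405 : ℕ) : ℝ) / ((10000 : ℕ) : ℝ)) (thr 9 11) 10 9 stP_9 :=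
  sxP_00 okP_8 ckP_9

theorem okP_10 : PoisOK 1 2 (((40405 : ℕ) : ℝ) / ((10000 : ℕ) : ℝ)) (thr 9 11) 10 10 stP_10 :=
  sxP_00 okP_9 ckP_10

theorem okP_11 : PoisOK 1 2 (((40405 : ℕ) : ℝ) / ((10000 : ℕ) : ℝ)) (thr 9 11) 10 11 stP_11 :=
  sxP_00 okP_10 ckP_11

theorem okP_12 : PoisOK 1 2 (((40405 : ℕ) : ℝ) / ((10000 : ℕ) : ℝ)) (thr 9 11) 10 12 stP_12 :=
  sxP_00 okP_11 ckP_12

theorem okP_13 : PoisOK 1 2 (((40405 : ℕ) : ℝ) / ((10000 : ℕ) : ℝ)) (thr 9 11) 10 13 stP_13 :=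
  sxP_00 okP_12 ckP_13

theorem okP_14 : PoisOK 1 2 (((40405 : ℕ) : ℝ) / ((10000 : ℕ) : ℝ)) (thr 9 11) 10 14 stP_14 :=
  sxP_00 okP_13 ckP_14

theorem okP_15 : PoisOK 1 2 (((40405 : ℕ) : ℝ) / ((10000 : ℕ) : ℝ)) (thr 9 11) 10 15 stP_15 :=
  sxP_00 okP_14 ckP_15

theorem okP_16 : PoisOK 1 2 (((40405 : ℕ) : ℝ) / ((10000 : ℕ) : ℝ)) (thr 9 11) 10 16 stP_16 :=
  sxP_00 okP_15 ckP_16

theorem okP_17 : PoisOK 1 2 (((40405 : ℕ) : ℝ) / ((10000 : ℕ) : ℝ)) (thr 9 11) 10 17 stP_17 :=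
  sxP_00 okP_16 ckP_17

theorem okP_18 : PoisOK 1 2 (((40405 : ℕ) : ℝ) / ((10000 : ℕ) : ℝ)) (thr 9 11) 10 18 stP_18 :=
  sxP_00 okP_17 ckP_18

theorem okP_19 : PoisOK 1 2 (((40405 : ℕ) : ℝ) / ((10000 : ℕ) : ℝ)) (thr 9 11) 10 19 stP_19 :=
  sxP_00 okP_18 ckP_19

theorem okP_20 : PoisOK 1 2 (((40405 : ℕ) : ℝ) / ((10000 : ℕ) : ℝ)) (thr 9 11) 10 20 stP_20 :=
  sxP_00 okP_19 ckP_20

theorem okP_21 : PoisOK 1 2 (((40405 : ℕ) : ℝ) / ((10000 : ℕ) : ℝ)) (thr 9 11) 10 21 stP_21 :=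
  sxP_00 okP_20 ckP_21

theorem okP_22 : PoisOK 1 2 (((40405 : ℕ) : ℝ) / ((10000 : ℕ) : ℝ)) (thr 9 11) 10 22 stP_22 :=
  sxP_00 okP_21 ckP_22

theorem okP_23 : PoisOK 1 2 (((40405 : ℕ) : ℝ) / ((10000 : ℕ) : ℝ)) (thr 9 11) 10 23 stP_23 :=
  sxP_00 okP_22 ckP_23

theorem okP_24 : PoisOK 1 2 (((40405 : ℕ) : ℝ) / ((10000 : ℕ) : ℝ)) (thr 9 11) 10 24 stP_24 :=
  sxP_00 okP_23 ckP_24

theorem okP_25 : PoisOK 1 2 (((40405 : ℕ) : ℝ) / ((10000 : ℕ) : ℝ)) (thr 9 11) 10 25 stP_25 :=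
  sxP_00 okP_24 ckP_25

theorem okP_26 : PoisOK 1 2 (((40405 : ℕ) : ℝ) / ((10000 : ℕ) : ℝ)) (thr 9 11) 10 26 stP_26 :=
  sxP_00 okP_25 ckP_26

theorem okP_27 : PoisOK 1 2 (((40405 : ℕ) : ℝ) / ((10000 : ℕ) : ℝ)) (thr 9 11) 10 27 stP_27 :=
  sxP_00 okP_26 ckP_27

theorem okP_28 : PoisOK 1 2 (((40405 : ℕ) : ℝ) / ((10000 : ℕ) : ℝ)) (thr 9 11) 10 28 stP_28 :=
  sxP_00 okP_27 ckP_28

theorem okP_29 : PoisOK 1 2 (((40405 : ℕ) : ℝ) / ((10000 : ℕ) : ℝ)) (thr 9 11) 10 29 stP_29 :=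
  sxP_00 okP_28 ckP_29

theorem okP_30 : PoisOK 1 2 (((40405 : ℕ) : ℝ) / ((10000 : ℕ) : ℝ)) (thr 9 11) 10 30 stP_30 :=
  sxP_00 okP_29 ckP_30

theorem okP_31 : PoisOK 1 2 (((40405 : ℕ) : ℝ) / ((10000 : ℕ) : ℝ)) (thr 9 11) 10 31 stP_31 :=
  sxP_00 okP_30 ckP_31

theorem okP_32 : PoisOK 1 2 (((40405 : ℕ) : ℝ) / ((10000 : ℕ) : ℝ)) (thr 9 11) 10 32 stP_32 :=
  sxP_00 okP_31 ckP_32

theorem okP_33 : PoisOK 1 2 (((40405 : ℕ) : ℝ) / ((10000 : ℕ) : ℝ)) (thr 9 11) 10 33 stP_33 :=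
  sxP_00 okP_32 ckP_33

theorem okP_34 : PoisOK 1 2 (((40405 : ℕ) : ℝ) / ((10000 : ℕ) : ℝ)) (thr 9 11) 10 34 stP_34 :=
  sxP_00 okP_33 ckP_34

theorem okP_35 : PoisOK 1 2 (((40405 : ℕ) : ℝ) / ((10000 : ℕ) : ℝ)) (thr 9 10) 20 35 stP_35 :=
  sxP_01 okP_34 ckP_35

theorem okP_36 : PoisOK 1 2 (((40405 : ℕ) : ℝ) / ((10000 : ℕ) : ℝ)) (thr 9 10) 20 36 stP_36 :=
  sxP_11 okP_35 ckP_36

theorem okP_37 : PoisOK 1 2 (((40405 : ℕ) : ℝ) / ((10000 : ℕ) : ℝ)) (thr 9 10) 20 37 stP_37 :=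
  sxP_11 okP_36 ckP_37

theorem okP_38 : PoisOK 1 2 (((40405 : ℕ) : ℝ) / ((10000 : ℕ) : ℝ)) (thr 9 10) 20 38 stP_38 :=
  sxP_11 okP_37 ckP_38

theorem okP_39 : PoisOK 1 2 (((40405 : ℕ) : ℝ) / ((10000 : ℕ) : ℝ)) (thr 9 10) 20 39 stP_39 :=
  sxP_11 okP_38 ckP_39

theorem okP_40 : PoisOK 1 2 (((40405 : ℕ) : ℝ) / ((10000 : ℕ) : ℝ)) (thr 9 10) 20 40 stP_40 :=
  sxP_11 okP_39 ckP_40

theorem okP_41 : PoisOK 1 2 (((40405 : ℕ) : ℝ) / ((10000 : ℕ) : ℝ)) (thr 9 10) 20 41 stP_41 :=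
  sxP_11 okP_40 ckP_41

theorem okP_42 : PoisOK 1 2 (((40405 : ℕ) : ℝ) / ((10000 : ℕ) : ℝ)) (thr 9 10) 20 42 stP_42 :=
  sxP_11 okP_41 ckP_42

theorem okP_43 : PoisOK 1 2 (((40405 : ℕ) : ℝ) / ((10000 : ℕ) : ℝ)) (thr 9 10) 20 43 stP_43 :=
  sxP_11 okP_42 ckP_43

theorem okP_44 : PoisOK 1 2 (((40405 : ℕ) : ℝ) / ((10000 : ℕ) : ℝ)) (thr 9 10) 20 44 stP_44 :=
  sxP_11 okP_43 ckP_44

theorem okP_45 : PoisOK 1 2 (((40405 : ℕ) : ℝ) / ((10000 : ℕ) : ℝ)) (thr 9 10) 20 45 stP_45 :=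
  sxP_11 okP_44 ckP_45

theorem okP_46 : PoisOK 1 2 (((40405 : ℕ) : ℝ) / ((10000 : ℕ) : ℝ)) (thr 9 10) 20 46 stP_46 :=
  sxP_11 okP_45 ckP_46

theorem okP_47 : PoisOK 1 2 (((40405 : ℕ) : ℝ) / ((10000 : ℕ) : ℝ)) (thr 9 10) 20 47 stP_47 :=
  sxP_11 okP_46 ckP_47

theorem okP_48 : PoisOK 1 2 (((40405 : ℕ) : ℝ) / ((10000 : ℕ) : ℝ)) (thr 9 10) 20 48 stP_48 :=
  sxP_11 okP_47 ckP_48

theorem okP_49 : PoisOK 1 2 (((40405 : ℕ) : ℝ) / ((10000 : ℕ) : ℝ)) (thr 9 10) 20 49 stP_49 :=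
  sxP_11 okP_48 ckP_49

theorem okP_50 : PoisOK 1 2 (((40405 : ℕ) : ℝ) / ((10000 : ℕ) : ℝ)) (thr 9 10) 20 50 stP_50 :=
  sxP_11 okP_49 ckP_50

theorem okP_51 : PoisOK 1 2 (((40405 : ℕ) : ℝ) / ((10000 : ℕ) : ℝ)) (thr 9 10) 20 51 stP_51 :=
  sxP_11 okP_50 ckP_51

theorem okP_52 : PoisOK 1 2 (((40405 : ℕ) : ℝ) / ((10000 : ℕ) : ℝ)) (thr 9 10) 20 52 stP_52 :=
  sxP_11 okP_51 ckP_52

theorem okP_53 : PoisOK 1 2 (((40405 : ℕ) : ℝ) / ((10000 : ℕ) : ℝ)) (thr 9 10) 20 53 stP_53 :=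
  sxP_11 okP_52 ckP_53

theorem okP_54 : PoisOK 1 2 (((40405 : ℕ) : ℝ) / ((10000 : ℕ) : ℝ)) (thr 9 10) 20 54 stP_54 :=
  sxP_11 okP_53 ckP_54

theorem okP_55 : PoisOK 1 2 (((40405 : ℕ) : ℝ) / ((10000 : ℕ) : ℝ)) (thr 9 10) 20 55 stP_55 :=
  sxP_11 okP_54 ckP_55

theorem okP_56 : PoisOK 1 2 (((40405 : ℕ) : ℝ) / ((10000 : ℕ) : ℝ)) (thr 9 10) 20 56 stP_56 :=
  sxP_11 okP_55 ckP_56

theorem okP_57 : PoisOK 1 2 (((40405 : ℕ) : ℝ) / ((10000 : ℕ) : ℝ)) (thr 9 10) 20 57 stP_57 :=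
  sxP_11 okP_56 ckP_57

theorem okP_58 : PoisOK 1 2 (((40405 : ℕ) : ℝ) / ((10000 : ℕ) : ℝ)) (thr 9 10) 20 58 stP_58 :=
  sxP_11 okP_57 ckP_58

theorem okP_59 : PoisOK 1 2 (((40405 : ℕ) : ℝ) / ((10000 : ℕ) : ℝ)) (thr 9 10) 20 59 stP_59 :=
  sxP_11 okP_58 ckP_59

theorem okP_60 : PoisOK 1 2 (((40405 : ℕ) : ℝ) / ((10000 : ℕ) : ℝ)) (thr 9 10) 20 60 stP_60 :=
  sxP_11 okP_59 ckP_60

theorem okP_61 : PoisOK 1 2 (((40405 : ℕ) : ℝ) / ((10000 : ℕ) : ℝ)) (thr 9 10) 20 61 stP_61 :=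
  sxP_11 okP_60 ckP_61

theorem okP_62 : PoisOK 1 2 (((40405 : ℕ) : ℝ) / ((10000 : ℕ) : ℝ)) (thr 9 10) 20 62 stP_62 :=
  sxP_11 okP_61 ckP_62

theorem okP_63 : PoisOK 1 2 (((40405 : ℕ) : ℝ) / ((10000 : ℕ) : ℝ)) (thr 9 10) 20 63 stP_63 :=
  sxP_11 okP_62 ckP_63

theorem okP_64 : PoisOK 1 2 (((40405 : ℕ) : ℝ) / ((10000 : ℕ) : ℝ)) (thr 9 10) 20 64 stP_64 :=
  sxP_11 okP_63 ckP_64

theorem okP_65 : PoisOK 1 2 (((40405 : ℕ) : ℝ) / ((10000 : ℕ) : ℝ)) (thr 9 10) 20 65 stP_65 :=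
  sxP_11 okP_64 ckP_65

theorem okP_66 : PoisOK 1 2 (((40405 : ℕ) : ℝ) / ((10000 : ℕ) : ℝ)) (thr 9 10) 20 66 stP_66 :=
  sxP_11 okP_65 ckP_66

theorem okP_67 : PoisOK 1 2 (((40405 : ℕ) : ℝ) / ((10000 : ℕ) : ℝ)) (thr 9 10) 20 67 stP_67 :=
  sxP_11 okP_66 ckP_67

theorem okP_68 : PoisOK 1 2 (((40405 : ℕ) : ℝ) / ((10000 : ℕ) : ℝ)) (thr 9 10) 20 68 stP_68 :=
  sxP_11 okP_67 ckP_68

theorem okP_69 : PoisOK 1 2 (((40405 : ℕ) : ℝ) / ((10000 : ℕ) : ℝ)) (thr 9 10) 20 69 stP_69 :=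
  sxP_11 okP_68 ckP_69

theorem okP_70 : PoisOK 1 2 (((40405 : ℕ) : ℝ) / ((10000 : ℕ) : ℝ)) (thr 9 10) 20 70 stP_70 :=
  sxP_11 okP_69 ckP_70

theorem okP_71 : PoisOK 1 2 (((40405 : ℕ) : ℝ) / ((10000 : ℕ) : ℝ)) (thr 9 10) 20 71 stP_71 :=
  sxP_11 okP_70 ckP_71

theorem okP_72 : PoisOK 1 2 (((40405 : ℕ) : ℝ) / ((10000 : ℕ) : ℝ)) (thr 9 10) 20 72 stP_72 :=
  sxP_11 okP_71 ckP_72

theorem okP_73 : PoisOK 1 2 (((40405 : ℕ) : ℝ) / ((10000 : ℕ) : ℝ)) (thr 9 10) 20 73 stP_73 :=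
  sxP_11 okP_72 ckP_73

theorem okP_74 : PoisOK 1 2 (((40405 : ℕ) : ℝ) / ((10000 : ℕ) : ℝ)) (thr 9 10) 20 74 stP_74 :=
  sxP_11 okP_73 ckP_74

theorem okP_75 : PoisOK 1 2 (((40405 : ℕ) : ℝ) / ((10000 : ℕ) : ℝ)) (thr 9 10) 20 75 stP_75 :=
  sxP_11 okP_74 ckP_75

theorem okP_76 : PoisOK 1 2 (((40405 : ℕ) : ℝ) / ((10000 : ℕ) : ℝ)) (thr 9 10) 20 76 stP_76 :=
  sxP_11 okP_75 ckP_76

theorem okP_77 : PoisOK 1 2 (((40405 : ℕ) : ℝ) / ((10000 : ℕ) : ℝ)) (thr 9 10) 20 77 stP_77 :=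
  sxP_11 okP_76 ckP_77

theorem okP_78 : PoisOK 1 2 (((40405 : ℕ) : ℝ) / ((10000 : ℕ) : ℝ)) (thr 9 10) 20 78 stP_78 :=
  sxP_11 okP_77 ckP_78

theorem okP_79 : PoisOK 1 2 (((40405 : ℕ) : ℝ) / ((10000 : ℕ) : ℝ)) (thr 9 10) 20 79 stP_79 :=
  sxP_11 okP_78 ckP_79

theorem okP_80 : PoisOK 1 2 (((40405 : ℕ) : ℝ) / ((10000 : ℕ) : ℝ)) (thr 9 10) 20 80 stP_80 :=
  sxP_11 okP_79 ckP_80

theorem okP_81 : PoisOK 1 2 (((40405 : ℕ) : ℝ) / ((10000 : ℕ) : ℝ)) (thr 9 10) 20 81 stP_81 :=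
  sxP_11 okP_80 ckP_81

theorem okP_82 : PoisOK 1 2 (((40405 : ℕ) : ℝ) / ((10000 : ℕ) : ℝ)) (thr 14 15) 24 82 stP_82 :=
  sxP_12 okP_81 ckP_82

theorem okP_83 : PoisOK 1 2 (((40405 : ℕ) : ℝ) / ((10000 : ℕ) : ℝ)) (thr 14 15) 24 83 stP_83 :=
  sxP_22 okP_82 ckP_83

theorem okP_84 : PoisOK 1 2 (((40405 : ℕ) : ℝ) / ((10000 : ℕ) : ℝ)) (thr 14 15) 24 84 stP_84 :=
  sxP_22 okP_83 ckP_84

theorem okP_85 : PoisOK 1 2 (((40405 : ℕ) : ℝ) / ((10000 : ℕ) : ℝ)) (thr 14 15) 24 85 stP_85 :=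
  sxP_22 okP_84 ckP_85

theorem okP_86 : PoisOK 1 2 (((40405 : ℕ) : ℝ) / ((10000 : ℕ) : ℝ)) (thr 14 15) 24 86 stP_86 :=
  sxP_22 okP_85 ckP_86

theorem okP_87 : PoisOK 1 2 (((40405 : ℕ) : ℝ) / ((10000 : ℕ) : ℝ)) (thr 14 15) 24 87 stP_87 :=
  sxP_22 okP_86 ckP_87

theorem okP_88 : PoisOK 1 2 (((40405 : ℕ) : ℝ) / ((10000 : ℕ) : ℝ)) (thr 14 15) 24 88 stP_88 :=
  sxP_22 okP_87 ckP_88

theorem okP_89 : PoisOK 1 2 (((40405 : ℕ) : ℝ) / ((10000 : ℕ) : ℝ)) (thr 14 15) 24 89 stP_89 :=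
  sxP_22 okP_88 ckP_89

theorem okP_90 : PoisOK 1 2 (((40405 : ℕ) : ℝ) / ((10000 : ℕ) : ℝ)) (thr 14 15) 24 90 stP_90 :=
  sxP_22 okP_89 ckP_90

theorem okP_91 : PoisOK 1 2 (((40405 : ℕ) : ℝ) / ((10000 : ℕ) : ℝ)) (thr 14 15) 24 91 stP_91 :=
  sxP_22 okP_90 ckP_91

theorem okP_92 : PoisOK 1 2 (((40405 : ℕ) : ℝ) / ((10000 : ℕ) : ℝ)) (thr 14 15) 24 92 stP_92 :=
  sxP_22 okP_91 ckP_92

theorem okP_93 : PoisOK 1 2 (((40405 : ℕ) : ℝ) / ((10000 : ℕ) : ℝ)) (thr 14 15) 24 93 stP_93 :=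
  sxP_22 okP_92 ckP_93

theorem okP_94 : PoisOK 1 2 (((40405 : ℕ) : ℝ) / ((10000 : ℕ) : ℝ)) (thr 14 15) 24 94 stP_94 :=
  sxP_22 okP_93 ckP_94

theorem okP_95 : PoisOK 1 2 (((40405 : ℕ) : ℝ) / ((10000 : ℕ) : ℝ)) (thr 14 15) 24 95 stP_95 :=
  sxP_22 okP_94 ckP_95

theorem okP_96 : PoisOK 1 2 (((40405 : ℕ) : ℝ) / ((10000 : ℕ) : ℝ)) (thr 14 15) 24 96 stP_96 :=
  sxP_22 okP_95 ckP_96

theorem okP_97 : PoisOK 1 2 (((40405 : ℕ) : ℝ) / ((10000 : ℕ) : ℝ)) (thr 14 15) 24 97 stP_97 :=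
  sxP_22 okP_96 ckP_97

theorem okP_98 : PoisOK 1 2 (((40405 : ℕ) : ℝ) / ((10000 : ℕ) : ℝ)) (thr 14 15) 24 98 stP_98 :=
  sxP_22 okP_97 ckP_98

theorem okP_99 : PoisOK 1 2 (((40405 : ℕ) : ℝ) / ((10000 : ℕ) : ℝ)) (thr 14 15) 24 99 stP_99 :=
  sxP_22 okP_98 ckP_99

theorem okP_100 : PoisOK 1 2 (((40405 : ℕ) : ℝ) / ((10000 : ℕ) : ℝ)) (thr 14 15) 24 100 stP_100 :=
  sxP_22 okP_99 ckP_100

theorem okP_101 : PoisOK 1 2 (((40405 : ℕ) : ℝ) / ((10000 : ℕ) : ℝ)) (thr 14 15) 24 101 stP_101 :=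
  sxP_22 okP_100 ckP_101

theorem okP_102 : PoisOK 1 2 (((40405 : ℕ) : ℝ) / ((10000 : ℕ) : ℝ)) (thr 14 15) 24 102 stP_102 :=
  sxP_22 okP_101 ckP_102

theorem okP_103 : PoisOK 1 2 (((40405 : ℕ) : ℝ) / ((10000 : ℕ) : ℝ)) (thr 14 15) 24 103 stP_103 :=
  sxP_22 okP_102 ckP_103

theorem okP_104 : PoisOK 1 2 (((40405 : ℕ) : ℝ) / ((10000 : ℕ) : ℝ)) (thr 14 15) 24 104 stP_104 :=
  sxP_22 okP_103 ckP_104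

theorem okP_105 : PoisOK 1 2 (((40405 : ℕ) : ℝ) / ((10000 : ℕ) : ℝ)) (thr 14 15) 24 105 stP_105 :=
  sxP_22 okP_104 ckP_105

theorem okP_106 : PoisOK 1 2 (((40405 : ℕ) : ℝ) / ((10000 : ℕ) : ℝ)) (thr 14 15) 24 106 stP_106 :=
  sxP_22 okP_105 ckP_106

theorem okP_107 : PoisOK 1 2 (((40405 : ℕ) : ℝ) / ((10000 : ℕ) : ℝ)) (thr 14 15) 24 107 stP_107 :=
  sxP_22 okP_106 ckP_107

theorem okP_108 : PoisOK 1 2 (((40405 : ℕ) : ℝ) / ((10000 : ℕ) : ℝ)) (thr 14 15) 24 108 stP_108 :=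
  sxP_22 okP_107 ckP_108

theorem okP_109 : PoisOK 1 2 (((40405 : ℕ) : ℝ) / ((10000 : ℕ) : ℝ)) (thr 14 15) 24 109 stP_109 :=
  sxP_22 okP_108 ckP_109

theorem okP_110 : PoisOK 1 2 (((40405 : ℕ) : ℝ) / ((10000 : ℕ) : ℝ)) (thr 14 15) 24 110 stP_110 :=
  sxP_22 okP_109 ckP_110

theorem okP_111 : PoisOK 1 2 (((40405 : ℕ) : ℝ) / ((10000 : ℕ) : ℝ)) (thr 14 15) 24 111 stP_111 :=
  sxP_22 okP_110 ckP_111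

theorem okP_112 : PoisOK 1 2 (((40405 : ℕ) : ℝ) / ((10000 : ℕ) : ℝ)) (thr 14 15) 24 112 stP_112 :=
  sxP_22 okP_111 ckP_112

theorem okP_113 : PoisOK 1 2 (((40405 : ℕ) : ℝ) / ((10000 : ℕ) : ℝ)) (thr 14 15) 24 113 stP_113 :=
  sxP_22 okP_112 ckP_113

theorem okP_114 : PoisOK 1 2 (((40405 : ℕ) : ℝ) / ((10000 : ℕ) : ℝ)) (thr 14 15) 24 114 stP_114 :=
  sxP_22 okP_113 ckP_114

theorem okP_115 : PoisOK 1 2 (((40405 : ℕ) : ℝ) / ((10000 : ℕ) : ℝ)) (thr 14 15) 24 115 stP_115 :=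
  sxP_22 okP_114 ckP_115

set_option maxRecDepth 100000 in
theorem inP : Nat.ble 1132745378276227154 (infoS 32 24 32 pw_14_15_70 stP_115) = true := by decide +kernel

/-- the box P -/
theorem boxP {κ d : ℝ} (h1 : 99/200 ≤ κ) (h2 : κ ≤ 1/2) (hd : 0 ≤ d) (h : d * κ ^ 2 ≤ 1) :
    ∑' T : GTree 115, poissonWeight d T * Mtree 3 (-κ) T ≤ 7/100 := by
  have hκ : 0 < κ := lt_of_lt_of_le (by norm_num) h1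
  have h3 : d * κ ≤ 200/99 := by
    have h4 : d * κ * κ ≤ 1 := by
      calc d * κ * κ = d * κ ^ 2 := by ring
        _ ≤ 1 := h
    have h5 : 0 ≤ d * κ := by positivity
    have h6 : d * κ * (99/200) ≤ 1 := (mul_le_mul_of_nonneg_left h1 h5).trans h4
    linarith
  refine (pois_M (by norm_num) (by norm_num) (by norm_num) ptP_2 (by norm_num) okP_115 inP hκ.le
    (by push_cast; linarith) hd (by push_cast; linarith)).trans ?_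
  norm_num

end NC

end Vale.Agent.P154.DE
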