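import Vale.Agent.P154.DE.EngD
import Vale.Agent.P154.DE.WqQ
import Vale.Agent.P154.DE.StQ
import Vale.Agent.P154.DE.Pw9_11_30
import Vale.Agent.P154.DE.Pw9_10_56
import Vale.Agent.P154.DE.Tk99_200_9_11_30_9_11_10
import Vale.Agent.P154.DE.Tk99_200_9_11_30_9_10_20
import Vale.Agent.P154.DE.Tk99_200_9_10_56_9_10_20

/-!
# Steps 0 to 36
-/

namespace Vale.Agent.P154.DE

set_option maxRecDepth 100000

theorem ckQ_1 : stN 81 10 30 pw_9_11_30 stQ_0 10 stQ_1 wqQ tk99_200_9_11_30_9_11_10 tk99_200_9_11_30_9_11_10E tk99_200_9_11_30_9_11_10V = true := by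
  decide +kernel

theorem ckQ_2 : stN 81 10 30 pw_9_11_30 stQ_1 10 stQ_2 wqQ tk99_200_9_11_30_9_11_10 tk99_200_9_11_30_9_11_10E tk99_200_9_11_30_9_11_10V = true := by
  decide +kernel

theorem ckQ_3 : stN 81 10 30 pw_9_11_30 stQ_2 10 stQ_3 wqQ tk99_200_9_11_30_9_11_10 tk99_200_9_11_30_9_11_10E tk99_200_9_11_30_9_11_10V = true := by
  decide +kernel

theorem ckQ_4 : stN 81 10 30 pw_9_11_30 stQ_3 10 stQ_4 wqQ tk99_200_9_11_30_9_11_10 tk99_200_9_11_30_9_11_10E tk99_200_9_11_30_9_11_10V = true := by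
  decide +kernel

theorem ckQ_5 : stN 81 10 30 pw_9_11_30 stQ_4 10 stQ_5 wqQ tk99_200_9_11_30_9_11_10 tk99_200_9_11_30_9_11_10E tk99_200_9_11_30_9_11_10V = true := by
  decide +kernel

theorem ckQ_6 : stN 81 10 30 pw_9_11_30 stQ_5 10 stQ_6 wqQ tk99_200_9_11_30_9_11_10 tk99_200_9_11_30_9_11_10E tk99_200_9_11_30_9_11_10V = true := by
  decide +kernel

theorem ckQ_7 : stN 81 10 30 pw_9_11_30 stQ_6 10 stQ_7 wqQ tk99_200_9_11_30_9_11_10 tk99_200_9_11_30_9_11_10E tk99_200_9_11_30_9_11_10V = true := by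
  decide +kernel

theorem ckQ_8 : stN 81 10 30 pw_9_11_30 stQ_7 10 stQ_8 wqQ tk99_200_9_11_30_9_11_10 tk99_200_9_11_30_9_11_10E tk99_200_9_11_30_9_11_10V = true := by
  decide +kernel

theorem ckQ_9 : stN 81 10 30 pw_9_11_30 stQ_8 10 stQ_9 wqQ tk99_200_9_11_30_9_11_10 tk99_200_9_11_30_9_11_10E tk99_200_9_11_30_9_11_10V = true := by
  decide +kernel

theorem ckQ_10 : stN 81 10 30 pw_9_11_30 stQ_9 10 stQ_10 wqQ tk99_200_9_11_30_9_11_10 tk99_200_9_11_30_9_11_10E tk99_200_9_11_30_9_11_10V = true := by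
  decide +kernel

theorem ckQ_11 : stN 81 10 30 pw_9_11_30 stQ_10 10 stQ_11 wqQ tk99_200_9_11_30_9_11_10 tk99_200_9_11_30_9_11_10E tk99_200_9_11_30_9_11_10V = true := by
  decide +kernel

theorem ckQ_12 : stN 81 10 30 pw_9_11_30 stQ_11 10 stQ_12 wqQ tk99_200_9_11_30_9_11_10 tk99_200_9_11_30_9_11_10E tk99_200_9_11_30_9_11_10V = true := by
  decide +kernel

theorem ckQ_13 : stN 81 10 30 pw_9_11_30 stQ_12 10 stQ_13 wqQ tk99_200_9_11_30_9_11_10 tk99_200_9_11_30_9_11_10E tk99_200_9_11_30_9_11_10V = true := by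
  decide +kernel

theorem ckQ_14 : stN 81 10 30 pw_9_11_30 stQ_13 10 stQ_14 wqQ tk99_200_9_11_30_9_11_10 tk99_200_9_11_30_9_11_10E tk99_200_9_11_30_9_11_10V = true := by
  decide +kernel

theorem ckQ_15 : stN 81 10 30 pw_9_11_30 stQ_14 10 stQ_15 wqQ tk99_200_9_11_30_9_11_10 tk99_200_9_11_30_9_11_10E tk99_200_9_11_30_9_11_10V = true := by
  decide +kernel

theorem ckQ_16 : stN 81 10 30 pw_9_11_30 stQ_15 10 stQ_16 wqQ tk99_200_9_11_30_9_11_10 tk99_200_9_11_30_9_11_10E tk99_200_9_11_30_9_11_10V = true := by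
  decide +kernel

theorem ckQ_17 : stN 81 10 30 pw_9_11_30 stQ_16 10 stQ_17 wqQ tk99_200_9_11_30_9_11_10 tk99_200_9_11_30_9_11_10E tk99_200_9_11_30_9_11_10V = true := by
  decide +kernel

theorem ckQ_18 : stN 81 10 30 pw_9_11_30 stQ_17 10 stQ_18 wqQ tk99_200_9_11_30_9_11_10 tk99_200_9_11_30_9_11_10E tk99_200_9_11_30_9_11_10V = true := by
  decide +kernel

theorem ckQ_19 : stN 81 10 30 pw_9_11_30 stQ_18 10 stQ_19 wqQ tk99_200_9_11_30_9_11_10 tk99_200_9_11_30_9_11_10E tk99_200_9_11_30_9_11_10V = true := by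
  decide +kernel

theorem ckQ_20 : stN 81 10 30 pw_9_11_30 stQ_19 10 stQ_20 wqQ tk99_200_9_11_30_9_11_10 tk99_200_9_11_30_9_11_10E tk99_200_9_11_30_9_11_10V = true := by
  decide +kernel

theorem ckQ_21 : stN 81 10 30 pw_9_11_30 stQ_20 10 stQ_21 wqQ tk99_200_9_11_30_9_11_10 tk99_200_9_11_30_9_11_10E tk99_200_9_11_30_9_11_10V = true := by
  decide +kernel

theorem ckQ_22 : stN 81 10 30 pw_9_11_30 stQ_21 10 stQ_22 wqQ tk99_200_9_11_30_9_11_10 tk99_200_9_11_30_9_11_10E tk99_200_9_11_30_9_11_10V = true := by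
  decide +kernel

theorem ckQ_23 : stN 81 10 30 pw_9_11_30 stQ_22 10 stQ_23 wqQ tk99_200_9_11_30_9_11_10 tk99_200_9_11_30_9_11_10E tk99_200_9_11_30_9_11_10V = true := by
  decide +kernel

theorem ckQ_24 : stN 81 10 30 pw_9_11_30 stQ_23 10 stQ_24 wqQ tk99_200_9_11_30_9_11_10 tk99_200_9_11_30_9_11_10E tk99_200_9_11_30_9_11_10V = true := by
  decide +kernel

theorem ckQ_25 : stN 81 10 30 pw_9_11_30 stQ_24 10 stQ_25 wqQ tk99_200_9_11_30_9_11_10 tk99_200_9_11_30_9_11_10E tk99_200_9_11_30_9_11_10V = true := by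
  decide +kernel

theorem ckQ_26 : stN 81 10 30 pw_9_11_30 stQ_25 10 stQ_26 wqQ tk99_200_9_11_30_9_11_10 tk99_200_9_11_30_9_11_10E tk99_200_9_11_30_9_11_10V = true := by
  decide +kernel

theorem ckQ_27 : stN 81 10 30 pw_9_11_30 stQ_26 10 stQ_27 wqQ tk99_200_9_11_30_9_11_10 tk99_200_9_11_30_9_11_10E tk99_200_9_11_30_9_11_10V = true := by
  decide +kernel

theorem ckQ_28 : stN 81 10 30 pw_9_11_30 stQ_27 10 stQ_28 wqQ tk99_200_9_11_30_9_11_10 tk99_200_9_11_30_9_11_10E tk99_200_9_11_30_9_11_10V = true := by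
  decide +kernel

theorem ckQ_29 : stN 81 10 30 pw_9_11_30 stQ_28 10 stQ_29 wqQ tk99_200_9_11_30_9_11_10 tk99_200_9_11_30_9_11_10E tk99_200_9_11_30_9_11_10V = true := by
  decide +kernel

theorem ckQ_30 : stN 81 10 30 pw_9_11_30 stQ_29 10 stQ_30 wqQ tk99_200_9_11_30_9_11_10 tk99_200_9_11_30_9_11_10E tk99_200_9_11_30_9_11_10V = true := by
  decide +kernel

theorem ckQ_31 : stN 81 10 30 pw_9_11_30 stQ_30 10 stQ_31 wqQ tk99_200_9_11_30_9_11_10 tk99_200_9_11_30_9_11_10E tk99_200_9_11_30_9_11_10V = true := by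
  decide +kernel

theorem ckQ_32 : stN 81 10 30 pw_9_11_30 stQ_31 10 stQ_32 wqQ tk99_200_9_11_30_9_11_10 tk99_200_9_11_30_9_11_10E tk99_200_9_11_30_9_11_10V = true := by
  decide +kernel

theorem ckQ_33 : stN 81 10 30 pw_9_11_30 stQ_32 10 stQ_33 wqQ tk99_200_9_11_30_9_11_10 tk99_200_9_11_30_9_11_10E tk99_200_9_11_30_9_11_10V = true := by
  decide +kernel

theorem ckQ_34 : stN 81 10 30 pw_9_11_30 stQ_33 10 stQ_34 wqQ tk99_200_9_11_30_9_11_10 tk99_200_9_11_30_9_11_10E tk99_200_9_11_30_9_11_10V = true := by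
  decide +kernel

theorem ckQ_35 : stN 81 10 30 pw_9_11_30 stQ_34 20 stQ_35 wqQ tk99_200_9_11_30_9_10_20 tk99_200_9_11_30_9_10_20E tk99_200_9_11_30_9_10_20V = true := by
  decide +kernel

theorem ckQ_36 : stN 153 20 56 pw_9_10_56 stQ_35 20 stQ_36 wqQ tk99_200_9_10_56_9_10_20 tk99_200_9_10_56_9_10_20E tk99_200_9_10_56_9_10_20V = true := by
  decide +kernel

end Vale.Agent.P154.DE
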