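import Vale.Agent.P154.DE.Pois2
import Vale.Agent.P154.DE.SpQ0
import Vale.Agent.P154.DE.SpQ1
import Vale.Agent.P154.DE.SpQ2
import Vale.Agent.P154.DE.SpQ3
import Vale.Agent.P154.DE.SpQ4
import Vale.Agent.P154.DE.SpQ5
import Vale.Agent.P154.DE.SpQ6
import Vale.Agent.P154.DE.SpQ7
import Vale.Agent.P154.DE.SpQ8
import Vale.Agent.P154.DE.SpQ9
import Vale.Agent.P154.DE.Cp9_11_30
import Vale.Agent.P154.DE.Cp9_10_56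
import Vale.Agent.P154.DE.Cp14_15_70
import Vale.Agent.P154.DE.Ctk99_200_9_11_30_9_11_10
import Vale.Agent.P154.DE.Ctk99_200_9_11_30_9_10_20
import Vale.Agent.P154.DE.Ctk99_200_9_10_56_9_10_20
import Vale.Agent.P154.DE.Ctk99_200_9_10_56_14_15_24
import Vale.Agent.P154.DE.Ctk99_200_14_15_70_14_15_24

/-!
# Chain of the box Q: channel parameter at most 99/200, at least 49/100
-/

namespace Vale.Agent.P154.DE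

noncomputable section NC

open Vale.Agent.P154.Up
open scoped ENNReal NNReal

theorem ewQ : ((18674415624818354 : ℕ) : ℝ) / ((1152921504606846976 : ℕ) : ℝ) ≤ Real.exp (-(((41229 : ℕ) : ℝ) / ((10000 : ℕ) : ℝ))) := by
  refine exp_low (x := 41229 / 80000) (u := 16742453057311 / 10000000000000) (by norm_num) (by norm_num) (by norm_num) ?_ ?_
  · norm_num [Finset.sum_range_succ, Nat.factorial]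
  · norm_num

set_option maxRecDepth 100000 in
theorem woQ : WtOK wqQ (((41229 : ℕ) : ℝ) / ((10000 : ℕ) : ℝ)) :=
  ⟨wts_ok (Dn := 41229) (Dd := 10000) (by norm_num) (by norm_num) (by norm_num) rfl ewQ (by decide +kernel),
    by decide +kernel⟩

theorem ptQ_0 : PT (thr 9 11) 30 32 pw_9_11_30 30 :=
  PT_of_chk (by norm_num) cp_9_11_30

theorem ptQ_1 : PT (thr 9 10) 30 32 pw_9_10_56 56 :=
  PT_of_chk (by norm_num) cp_9_10_56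

theorem ptQ_2 : PT (thr 14 15) 30 32 pw_14_15_70 70 :=
  PT_of_chk (by norm_num) cp_14_15_70

theorem tbQ_00 : TbOK 99 200 pw_9_11_30 30 pw_9_11_30 10 tk99_200_9_11_30_9_11_10 tk99_200_9_11_30_9_11_10E tk99_200_9_11_30_9_11_10V :=
  ⟨c1tk99_200_9_11_30_9_11_10, (TabS.toTab_len _ _).trans c2tk99_200_9_11_30_9_11_10, c3tk99_200_9_11_30_9_11_10, c4tk99_200_9_11_30_9_11_10, c5tk99_200_9_11_30_9_11_10⟩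

theorem sxQ_00 {n S S' : ℕ} (hS : PoisOK 99 200 (((41229 : ℕ) : ℝ) / ((10000 : ℕ) : ℝ)) (thr 9 11) 10 n S)
    (h : stN 81 10 30 pw_9_11_30 S 10 S' wqQ tk99_200_9_11_30_9_11_10 tk99_200_9_11_30_9_11_10E tk99_200_9_11_30_9_11_10V = true) :
    PoisOK 99 200 (((41229 : ℕ) : ℝ) / ((10000 : ℕ) : ℝ)) (thr 9 11) 10 (n + 1) S' :=
  pois_step2 (by norm_num) (by norm_num) (by norm_num) (by norm_num) ptQ_0 (ptQ_0.mono (by norm_num))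
    tbQ_00 (by norm_num) (by norm_num) (by norm_num) (by norm_num) woQ hS h

theorem tbQ_01 : TbOK 99 200 pw_9_11_30 30 pw_9_10_56 20 tk99_200_9_11_30_9_10_20 tk99_200_9_11_30_9_10_20E tk99_200_9_11_30_9_10_20V :=
  ⟨c1tk99_200_9_11_30_9_10_20, (TabS.toTab_len _ _).trans c2tk99_200_9_11_30_9_10_20, c3tk99_200_9_11_30_9_10_20, c4tk99_200_9_11_30_9_10_20, c5tk99_200_9_11_30_9_10_20⟩

theorem sxQ_01 {n S S' : ℕ} (hS : PoisOK 99 200 (((41229 : ℕ) : ℝ) / ((10000 : ℕ) : ℝ)) (thr 9 11) 10 n S)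
    (h : stN 81 10 30 pw_9_11_30 S 20 S' wqQ tk99_200_9_11_30_9_10_20 tk99_200_9_11_30_9_10_20E tk99_200_9_11_30_9_10_20V = true) :
    PoisOK 99 200 (((41229 : ℕ) : ℝ) / ((10000 : ℕ) : ℝ)) (thr 9 10) 20 (n + 1) S' :=
  pois_step2 (by norm_num) (by norm_num) (by norm_num) (by norm_num) ptQ_0 (ptQ_1.mono (by norm_num))
    tbQ_01 (by norm_num) (by norm_num) (by norm_num) (by norm_num) woQ hS h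

theorem tbQ_11 : TbOK 99 200 pw_9_10_56 56 pw_9_10_56 20 tk99_200_9_10_56_9_10_20 tk99_200_9_10_56_9_10_20E tk99_200_9_10_56_9_10_20V :=
  ⟨c1tk99_200_9_10_56_9_10_20, (TabS.toTab_len _ _).trans c2tk99_200_9_10_56_9_10_20, c3tk99_200_9_10_56_9_10_20, c4tk99_200_9_10_56_9_10_20, c5tk99_200_9_10_56_9_10_20⟩

theorem sxQ_11 {n S S' : ℕ} (hS : PoisOK 99 200 (((41229 : ℕ) : ℝ) / ((10000 : ℕ) : ℝ)) (thr 9 10) 20 n S)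
    (h : stN 153 20 56 pw_9_10_56 S 20 S' wqQ tk99_200_9_10_56_9_10_20 tk99_200_9_10_56_9_10_20E tk99_200_9_10_56_9_10_20V = true) :
    PoisOK 99 200 (((41229 : ℕ) : ℝ) / ((10000 : ℕ) : ℝ)) (thr 9 10) 20 (n + 1) S' :=
  pois_step2 (by norm_num) (by norm_num) (by norm_num) (by norm_num) ptQ_1 (ptQ_1.mono (by norm_num))
    tbQ_11 (by norm_num) (by norm_num) (by norm_num) (by norm_num) woQ hS h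

theorem tbQ_12 : TbOK 99 200 pw_9_10_56 56 pw_14_15_70 24 tk99_200_9_10_56_14_15_24 tk99_200_9_10_56_14_15_24E tk99_200_9_10_56_14_15_24V :=
  ⟨c1tk99_200_9_10_56_14_15_24, (TabS.toTab_len _ _).trans c2tk99_200_9_10_56_14_15_24, c3tk99_200_9_10_56_14_15_24, c4tk99_200_9_10_56_14_15_24, c5tk99_200_9_10_56_14_15_24⟩

theorem sxQ_12 {n S S' : ℕ} (hS : PoisOK 99 200 (((41229 : ℕ) : ℝ) / ((10000 : ℕ) : ℝ)) (thr 9 10) 20 n S)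
    (h : stN 153 20 56 pw_9_10_56 S 24 S' wqQ tk99_200_9_10_56_14_15_24 tk99_200_9_10_56_14_15_24E tk99_200_9_10_56_14_15_24V = true) :
    PoisOK 99 200 (((41229 : ℕ) : ℝ) / ((10000 : ℕ) : ℝ)) (thr 14 15) 24 (n + 1) S' :=
  pois_step2 (by norm_num) (by norm_num) (by norm_num) (by norm_num) ptQ_1 (ptQ_2.mono (by norm_num))
    tbQ_12 (by norm_num) (by norm_num) (by norm_num) (by norm_num) woQ hS h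

theorem tbQ_22 : TbOK 99 200 pw_14_15_70 70 pw_14_15_70 24 tk99_200_14_15_70_14_15_24 tk99_200_14_15_70_14_15_24E tk99_200_14_15_70_14_15_24V :=
  ⟨c1tk99_200_14_15_70_14_15_24, (TabS.toTab_len _ _).trans c2tk99_200_14_15_70_14_15_24, c3tk99_200_14_15_70_14_15_24, c4tk99_200_14_15_70_14_15_24, c5tk99_200_14_15_70_14_15_24⟩

theorem sxQ_22 {n S S' : ℕ} (hS : PoisOK 99 200 (((41229 : ℕ) : ℝ) / ((10000 : ℕ) : ℝ)) (thr 14 15) 24 n S)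
    (h : stN 189 24 70 pw_14_15_70 S 24 S' wqQ tk99_200_14_15_70_14_15_24 tk99_200_14_15_70_14_15_24E tk99_200_14_15_70_14_15_24V = true) :
    PoisOK 99 200 (((41229 : ℕ) : ℝ) / ((10000 : ℕ) : ℝ)) (thr 14 15) 24 (n + 1) S' :=
  pois_step2 (by norm_num) (by norm_num) (by norm_num) (by norm_num) ptQ_2 (ptQ_2.mono (by norm_num))
    tbQ_22 (by norm_num) (by norm_num) (by norm_num) (by norm_num) woQ hS h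

theorem okQ_0 : PoisOK 99 200 (((41229 : ℕ) : ℝ) / ((10000 : ℕ) : ℝ)) (thr 9 11) 10 0 stQ_0 :=
  poisOK_zero _ _ _ _ _

theorem okQ_1 : PoisOK 99 200 (((41229 : ℕ) : ℝ) / ((10000 : ℕ) : ℝ)) (thr 9 11) 10 1 stQ_1 :=
  sxQ_00 okQ_0 ckQ_1

theorem okQ_2 : PoisOK 99 200 (((41229 : ℕ) : ℝ) / ((10000 : ℕ) : ℝ)) (thr 9 11) 10 2 stQ_2 :=
  sxQ_00 okQ_1 ckQ_2

theorem okQ_3 : PoisOK 99 200 (((41229 : ℕ) : ℝ) / ((10000 : ℕ) : ℝ)) (thr 9 11) 10 3 stQ_3 :=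
  sxQ_00 okQ_2 ckQ_3

theorem okQ_4 : PoisOK 99 200 (((41229 : ℕ) : ℝ) / ((10000 : ℕ) : ℝ)) (thr 9 11) 10 4 stQ_4 :=
  sxQ_00 okQ_3 ckQ_4

theorem okQ_5 : PoisOK 99 200 (((41229 : ℕ) : ℝ) / ((10000 : ℕ) : ℝ)) (thr 9 11) 10 5 stQ_5 :=
  sxQ_00 okQ_4 ckQ_5

theorem okQ_6 : PoisOK 99 200 (((41229 : ℕ) : ℝ) / ((10000 : ℕ) : ℝ)) (thr 9 11) 10 6 stQ_6 :=
  sxQ_00 okQ_5 ckQ_6

theorem okQ_7 : PoisOK 99 200 (((41229 : ℕ) : ℝ) / ((10000 : ℕ) : ℝ)) (thr 9 11) 10 7 stQ_7 :=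
  sxQ_00 okQ_6 ckQ_7

theorem okQ_8 : PoisOK 99 200 (((41229 : ℕ) : ℝ) / ((10000 : ℕ) : ℝ)) (thr 9 11) 10 8 stQ_8 :=
  sxQ_00 okQ_7 ckQ_8

theorem okQ_9 : PoisOK 99 200 (((41229 : ℕ) : ℝ) / ((10000 : ℕ) : ℝ)) (thr 9 11) 10 9 stQ_9 :=
  sxQ_00 okQ_8 ckQ_9

theorem okQ_10 : PoisOK 99 200 (((41229 : ℕ) : ℝ) / ((10000 : ℕ) : ℝ)) (thr 9 11) 10 10 stQ_10 :=
  sxQ_00 okQ_9 ckQ_10

theorem okQ_11 : PoisOK 99 200 (((41229 : ℕ) : ℝ) / ((10000 : ℕ) : ℝ)) (thr 9 11) 10 11 stQ_11 :=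
  sxQ_00 okQ_10 ckQ_11

theorem okQ_12 : PoisOK 99 200 (((41229 : ℕ) : ℝ) / ((10000 : ℕ) : ℝ)) (thr 9 11) 10 12 stQ_12 :=
  sxQ_00 okQ_11 ckQ_12

theorem okQ_13 : PoisOK 99 200 (((41229 : ℕ) : ℝ) / ((10000 : ℕ) : ℝ)) (thr 9 11) 10 13 stQ_13 :=
  sxQ_00 okQ_12 ckQ_13

theorem okQ_14 : PoisOK 99 200 (((41229 : ℕ) : ℝ) / ((10000 : ℕ) : ℝ)) (thr 9 11) 10 14 stQ_14 :=
  sxQ_00 okQ_13 ckQ_14

theorem okQ_15 : PoisOK 99 200 (((41229 : ℕ) : ℝ) / ((10000 : ℕ) : ℝ)) (thr 9 11) 10 15 stQ_15 :=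
  sxQ_00 okQ_14 ckQ_15

theorem okQ_16 : PoisOK 99 200 (((41229 : ℕ) : ℝ) / ((10000 : ℕ) : ℝ)) (thr 9 11) 10 16 stQ_16 :=
  sxQ_00 okQ_15 ckQ_16

theorem okQ_17 : PoisOK 99 200 (((41229 : ℕ) : ℝ) / ((10000 : ℕ) : ℝ)) (thr 9 11) 10 17 stQ_17 :=
  sxQ_00 okQ_16 ckQ_17

theorem okQ_18 : PoisOK 99 200 (((41229 : ℕ) : ℝ) / ((10000 : ℕ) : ℝ)) (thr 9 11) 10 18 stQ_18 :=
  sxQ_00 okQ_17 ckQ_18

theorem okQ_19 : PoisOK 99 200 (((41229 : ℕ) : ℝ) / ((10000 : ℕ) : ℝ)) (thr 9 11) 10 19 stQ_19 :=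
  sxQ_00 okQ_18 ckQ_19

theorem okQ_20 : PoisOK 99 200 (((41229 : ℕ) : ℝ) / ((10000 : ℕ) : ℝ)) (thr 9 11) 10 20 stQ_20 :=
  sxQ_00 okQ_19 ckQ_20

theorem okQ_21 : PoisOK 99 200 (((41229 : ℕ) : ℝ) / ((10000 : ℕ) : ℝ)) (thr 9 11) 10 21 stQ_21 :=
  sxQ_00 okQ_20 ckQ_21

theorem okQ_22 : PoisOK 99 200 (((41229 : ℕ) : ℝ) / ((10000 : ℕ) : ℝ)) (thr 9 11) 10 22 stQ_22 :=
  sxQ_00 okQ_21 ckQ_22

theorem okQ_23 : PoisOK 99 200 (((41229 : ℕ) : ℝ) / ((10000 : ℕ) : ℝ)) (thr 9 11) 10 23 stQ_23 :=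
  sxQ_00 okQ_22 ckQ_23

theorem okQ_24 : PoisOK 99 200 (((41229 : ℕ) : ℝ) / ((10000 : ℕ) : ℝ)) (thr 9 11) 10 24 stQ_24 :=
  sxQ_00 okQ_23 ckQ_24

theorem okQ_25 : PoisOK 99 200 (((41229 : ℕ) : ℝ) / ((10000 : ℕ) : ℝ)) (thr 9 11) 10 25 stQ_25 :=
  sxQ_00 okQ_24 ckQ_25

theorem okQ_26 : PoisOK 99 200 (((41229 : ℕ) : ℝ) / ((10000 : ℕ) : ℝ)) (thr 9 11) 10 26 stQ_26 :=
  sxQ_00 okQ_25 ckQ_26

theorem okQ_27 : PoisOK 99 200 (((41229 : ℕ) : ℝ) / ((10000 : ℕ) : ℝ)) (thr 9 11) 10 27 stQ_27 :=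
  sxQ_00 okQ_26 ckQ_27

theorem okQ_28 : PoisOK 99 200 (((41229 : ℕ) : ℝ) / ((10000 : ℕ) : ℝ)) (thr 9 11) 10 28 stQ_28 :=
  sxQ_00 okQ_27 ckQ_28

theorem okQ_29 : PoisOK 99 200 (((41229 : ℕ) : ℝ) / ((10000 : ℕ) : ℝ)) (thr 9 11) 10 29 stQ_29 :=
  sxQ_00 okQ_28 ckQ_29

theorem okQ_30 : PoisOK 99 200 (((41229 : ℕ) : ℝ) / ((10000 : ℕ) : ℝ)) (thr 9 11) 10 30 stQ_30 :=
  sxQ_00 okQ_29 ckQ_30

theorem okQ_31 : PoisOK 99 200 (((41229 : ℕ) : ℝ) / ((10000 : ℕ) : ℝ)) (thr 9 11) 10 31 stQ_31 :=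
  sxQ_00 okQ_30 ckQ_31

theorem okQ_32 : PoisOK 99 200 (((41229 : ℕ) : ℝ) / ((10000 : ℕ) : ℝ)) (thr 9 11) 10 32 stQ_32 :=
  sxQ_00 okQ_31 ckQ_32

theorem okQ_33 : PoisOK 99 200 (((41229 : ℕ) : ℝ) / ((10000 : ℕ) : ℝ)) (thr 9 11) 10 33 stQ_33 :=
  sxQ_00 okQ_32 ckQ_33

theorem okQ_34 : PoisOK 99 200 (((41229 : ℕ) : ℝ) / ((10000 : ℕ) : ℝ)) (thr 9 11) 10 34 stQ_34 :=
  sxQ_00 okQ_33 ckQ_34

theorem okQ_35 : PoisOK 99 200 (((41229 : ℕ) : ℝ) / ((10000 : ℕ) : ℝ)) (thr 9 10) 20 35 stQ_35 :=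
  sxQ_01 okQ_34 ckQ_35

theorem okQ_36 : PoisOK 99 200 (((41229 : ℕ) : ℝ) / ((10000 : ℕ) : ℝ)) (thr 9 10) 20 36 stQ_36 :=
  sxQ_11 okQ_35 ckQ_36

theorem okQ_37 : PoisOK 99 200 (((41229 : ℕ) : ℝ) / ((10000 : ℕ) : ℝ)) (thr 9 10) 20 37 stQ_37 :=
  sxQ_11 okQ_36 ckQ_37

theorem okQ_38 : PoisOK 99 200 (((41229 : ℕ) : ℝ) / ((10000 : ℕ) : ℝ)) (thr 9 10) 20 38 stQ_38 :=
  sxQ_11 okQ_37 ckQ_38

theorem okQ_39 : PoisOK 99 200 (((41229 : ℕ) : ℝ) / ((10000 : ℕ) : ℝ)) (thr 9 10) 20 39 stQ_39 :=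
  sxQ_11 okQ_38 ckQ_39

theorem okQ_40 : PoisOK 99 200 (((41229 : ℕ) : ℝ) / ((10000 : ℕ) : ℝ)) (thr 9 10) 20 40 stQ_40 :=
  sxQ_11 okQ_39 ckQ_40

theorem okQ_41 : PoisOK 99 200 (((41229 : ℕ) : ℝ) / ((10000 : ℕ) : ℝ)) (thr 9 10) 20 41 stQ_41 :=
  sxQ_11 okQ_40 ckQ_41

theorem okQ_42 : PoisOK 99 200 (((41229 : ℕ) : ℝ) / ((10000 : ℕ) : ℝ)) (thr 9 10) 20 42 stQ_42 :=
  sxQ_11 okQ_41 ckQ_42

theorem okQ_43 : PoisOK 99 200 (((41229 : ℕ) : ℝ) / ((10000 : ℕ) : ℝ)) (thr 9 10) 20 43 stQ_43 :=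
  sxQ_11 okQ_42 ckQ_43

theorem okQ_44 : PoisOK 99 200 (((41229 : ℕ) : ℝ) / ((10000 : ℕ) : ℝ)) (thr 9 10) 20 44 stQ_44 :=
  sxQ_11 okQ_43 ckQ_44

theorem okQ_45 : PoisOK 99 200 (((41229 : ℕ) : ℝ) / ((10000 : ℕ) : ℝ)) (thr 9 10) 20 45 stQ_45 :=
  sxQ_11 okQ_44 ckQ_45

theorem okQ_46 : PoisOK 99 200 (((41229 : ℕ) : ℝ) / ((10000 : ℕ) : ℝ)) (thr 9 10) 20 46 stQ_46 :=
  sxQ_11 okQ_45 ckQ_46

theorem okQ_47 : PoisOK 99 200 (((41229 : ℕ) : ℝ) / ((10000 : ℕ) : ℝ)) (thr 9 10) 20 47 stQ_47 :=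
  sxQ_11 okQ_46 ckQ_47

theorem okQ_48 : PoisOK 99 200 (((41229 : ℕ) : ℝ) / ((10000 : ℕ) : ℝ)) (thr 9 10) 20 48 stQ_48 :=
  sxQ_11 okQ_47 ckQ_48

theorem okQ_49 : PoisOK 99 200 (((41229 : ℕ) : ℝ) / ((10000 : ℕ) : ℝ)) (thr 9 10) 20 49 stQ_49 :=
  sxQ_11 okQ_48 ckQ_49

theorem okQ_50 : PoisOK 99 200 (((41229 : ℕ) : ℝ) / ((10000 : ℕ) : ℝ)) (thr 9 10) 20 50 stQ_50 :=
  sxQ_11 okQ_49 ckQ_50

theorem okQ_51 : PoisOK 99 200 (((41229 : ℕ) : ℝ) / ((10000 : ℕ) : ℝ)) (thr 9 10) 20 51 stQ_51 :=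
  sxQ_11 okQ_50 ckQ_51

theorem okQ_52 : PoisOK 99 200 (((41229 : ℕ) : ℝ) / ((10000 : ℕ) : ℝ)) (thr 9 10) 20 52 stQ_52 :=
  sxQ_11 okQ_51 ckQ_52

theorem okQ_53 : PoisOK 99 200 (((41229 : ℕ) : ℝ) / ((10000 : ℕ) : ℝ)) (thr 9 10) 20 53 stQ_53 :=
  sxQ_11 okQ_52 ckQ_53

theorem okQ_54 : PoisOK 99 200 (((41229 : ℕ) : ℝ) / ((10000 : ℕ) : ℝ)) (thr 9 10) 20 54 stQ_54 :=
  sxQ_11 okQ_53 ckQ_54

theorem okQ_55 : PoisOK 99 200 (((41229 : ℕ) : ℝ) / ((10000 : ℕ) : ℝ)) (thr 9 10) 20 55 stQ_55 :=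
  sxQ_11 okQ_54 ckQ_55

theorem okQ_56 : PoisOK 99 200 (((41229 : ℕ) : ℝ) / ((10000 : ℕ) : ℝ)) (thr 9 10) 20 56 stQ_56 :=
  sxQ_11 okQ_55 ckQ_56

theorem okQ_57 : PoisOK 99 200 (((41229 : ℕ) : ℝ) / ((10000 : ℕ) : ℝ)) (thr 9 10) 20 57 stQ_57 :=
  sxQ_11 okQ_56 ckQ_57

theorem okQ_58 : PoisOK 99 200 (((41229 : ℕ) : ℝ) / ((10000 : ℕ) : ℝ)) (thr 9 10) 20 58 stQ_58 :=
  sxQ_11 okQ_57 ckQ_58

theorem okQ_59 : PoisOK 99 200 (((41229 : ℕ) : ℝ) / ((10000 : ℕ) : ℝ)) (thr 9 10) 20 59 stQ_59 :=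
  sxQ_11 okQ_58 ckQ_59

theorem okQ_60 : PoisOK 99 200 (((41229 : ℕ) : ℝ) / ((10000 : ℕ) : ℝ)) (thr 9 10) 20 60 stQ_60 :=
  sxQ_11 okQ_59 ckQ_60

theorem okQ_61 : PoisOK 99 200 (((41229 : ℕ) : ℝ) / ((10000 : ℕ) : ℝ)) (thr 9 10) 20 61 stQ_61 :=
  sxQ_11 okQ_60 ckQ_61

theorem okQ_62 : PoisOK 99 200 (((41229 : ℕ) : ℝ) / ((10000 : ℕ) : ℝ)) (thr 9 10) 20 62 stQ_62 :=
  sxQ_11 okQ_61 ckQ_62

theorem okQ_63 : PoisOK 99 200 (((41229 : ℕ) : ℝ) / ((10000 : ℕ) : ℝ)) (thr 9 10) 20 63 stQ_63 :=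
  sxQ_11 okQ_62 ckQ_63

theorem okQ_64 : PoisOK 99 200 (((41229 : ℕ) : ℝ) / ((10000 : ℕ) : ℝ)) (thr 9 10) 20 64 stQ_64 :=
  sxQ_11 okQ_63 ckQ_64

theorem okQ_65 : PoisOK 99 200 (((41229 : ℕ) : ℝ) / ((10000 : ℕ) : ℝ)) (thr 9 10) 20 65 stQ_65 :=
  sxQ_11 okQ_64 ckQ_65

theorem okQ_66 : PoisOK 99 200 (((41229 : ℕ) : ℝ) / ((10000 : ℕ) : ℝ)) (thr 9 10) 20 66 stQ_66 :=
  sxQ_11 okQ_65 ckQ_66

theorem okQ_67 : PoisOK 99 200 (((41229 : ℕ) : ℝ) / ((10000 : ℕ) : ℝ)) (thr 9 10) 20 67 stQ_67 :=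
  sxQ_11 okQ_66 ckQ_67

theorem okQ_68 : PoisOK 99 200 (((41229 : ℕ) : ℝ) / ((10000 : ℕ) : ℝ)) (thr 9 10) 20 68 stQ_68 :=
  sxQ_11 okQ_67 ckQ_68

theorem okQ_69 : PoisOK 99 200 (((41229 : ℕ) : ℝ) / ((10000 : ℕ) : ℝ)) (thr 9 10) 20 69 stQ_69 :=
  sxQ_11 okQ_68 ckQ_69

theorem okQ_70 : PoisOK 99 200 (((41229 : ℕ) : ℝ) / ((10000 : ℕ) : ℝ)) (thr 9 10) 20 70 stQ_70 :=
  sxQ_11 okQ_69 ckQ_70

theorem okQ_71 : PoisOK 99 200 (((41229 : ℕ) : ℝ) / ((10000 : ℕ) : ℝ)) (thr 9 10) 20 71 stQ_71 :=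
  sxQ_11 okQ_70 ckQ_71

theorem okQ_72 : PoisOK 99 200 (((41229 : ℕ) : ℝ) / ((10000 : ℕ) : ℝ)) (thr 9 10) 20 72 stQ_72 :=
  sxQ_11 okQ_71 ckQ_72

theorem okQ_73 : PoisOK 99 200 (((41229 : ℕ) : ℝ) / ((10000 : ℕ) : ℝ)) (thr 9 10) 20 73 stQ_73 :=
  sxQ_11 okQ_72 ckQ_73

theorem okQ_74 : PoisOK 99 200 (((41229 : ℕ) : ℝ) / ((10000 : ℕ) : ℝ)) (thr 9 10) 20 74 stQ_74 :=
  sxQ_11 okQ_73 ckQ_74

theorem okQ_75 : PoisOK 99 200 (((41229 : ℕ) : ℝ) / ((10000 : ℕ) : ℝ)) (thr 9 10) 20 75 stQ_75 :=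
  sxQ_11 okQ_74 ckQ_75

theorem okQ_76 : PoisOK 99 200 (((41229 : ℕ) : ℝ) / ((10000 : ℕ) : ℝ)) (thr 9 10) 20 76 stQ_76 :=
  sxQ_11 okQ_75 ckQ_76

theorem okQ_77 : PoisOK 99 200 (((41229 : ℕ) : ℝ) / ((10000 : ℕ) : ℝ)) (thr 9 10) 20 77 stQ_77 :=
  sxQ_11 okQ_76 ckQ_77

theorem okQ_78 : PoisOK 99 200 (((41229 : ℕ) : ℝ) / ((10000 : ℕ) : ℝ)) (thr 9 10) 20 78 stQ_78 :=
  sxQ_11 okQ_77 ckQ_78

theorem okQ_79 : PoisOK 99 200 (((41229 : ℕ) : ℝ) / ((10000 : ℕ) : ℝ)) (thr 9 10) 20 79 stQ_79 :=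
  sxQ_11 okQ_78 ckQ_79

theorem okQ_80 : PoisOK 99 200 (((41229 : ℕ) : ℝ) / ((10000 : ℕ) : ℝ)) (thr 9 10) 20 80 stQ_80 :=
  sxQ_11 okQ_79 ckQ_80

theorem okQ_81 : PoisOK 99 200 (((41229 : ℕ) : ℝ) / ((10000 : ℕ) : ℝ)) (thr 9 10) 20 81 stQ_81 :=
  sxQ_11 okQ_80 ckQ_81

theorem okQ_82 : PoisOK 99 200 (((41229 : ℕ) : ℝ) / ((10000 : ℕ) : ℝ)) (thr 14 15) 24 82 stQ_82 :=
  sxQ_12 okQ_81 ckQ_82

theorem okQ_83 : PoisOK 99 200 (((41229 : ℕ) : ℝ) / ((10000 : ℕ) : ℝ)) (thr 14 15) 24 83 stQ_83 :=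
  sxQ_22 okQ_82 ckQ_83

theorem okQ_84 : PoisOK 99 200 (((41229 : ℕ) : ℝ) / ((10000 : ℕ) : ℝ)) (thr 14 15) 24 84 stQ_84 :=
  sxQ_22 okQ_83 ckQ_84

theorem okQ_85 : PoisOK 99 200 (((41229 : ℕ) : ℝ) / ((10000 : ℕ) : ℝ)) (thr 14 15) 24 85 stQ_85 :=
  sxQ_22 okQ_84 ckQ_85

theorem okQ_86 : PoisOK 99 200 (((41229 : ℕ) : ℝ) / ((10000 : ℕ) : ℝ)) (thr 14 15) 24 86 stQ_86 :=
  sxQ_22 okQ_85 ckQ_86

theorem okQ_87 : PoisOK 99 200 (((41229 : ℕ) : ℝ) / ((10000 : ℕ) : ℝ)) (thr 14 15) 24 87 stQ_87 :=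
  sxQ_22 okQ_86 ckQ_87

theorem okQ_88 : PoisOK 99 200 (((41229 : ℕ) : ℝ) / ((10000 : ℕ) : ℝ)) (thr 14 15) 24 88 stQ_88 :=
  sxQ_22 okQ_87 ckQ_88

theorem okQ_89 : PoisOK 99 200 (((41229 : ℕ) : ℝ) / ((10000 : ℕ) : ℝ)) (thr 14 15) 24 89 stQ_89 :=
  sxQ_22 okQ_88 ckQ_89

theorem okQ_90 : PoisOK 99 200 (((41229 : ℕ) : ℝ) / ((10000 : ℕ) : ℝ)) (thr 14 15) 24 90 stQ_90 :=
  sxQ_22 okQ_89 ckQ_90

theorem okQ_91 : PoisOK 99 200 (((41229 : ℕ) : ℝ) / ((10000 : ℕ) : ℝ)) (thr 14 15) 24 91 stQ_91 :=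
  sxQ_22 okQ_90 ckQ_91

theorem okQ_92 : PoisOK 99 200 (((41229 : ℕ) : ℝ) / ((10000 : ℕ) : ℝ)) (thr 14 15) 24 92 stQ_92 :=
  sxQ_22 okQ_91 ckQ_92

theorem okQ_93 : PoisOK 99 200 (((41229 : ℕ) : ℝ) / ((10000 : ℕ) : ℝ)) (thr 14 15) 24 93 stQ_93 :=
  sxQ_22 okQ_92 ckQ_93

theorem okQ_94 : PoisOK 99 200 (((41229 : ℕ) : ℝ) / ((10000 : ℕ) : ℝ)) (thr 14 15) 24 94 stQ_94 :=
  sxQ_22 okQ_93 ckQ_94

theorem okQ_95 : PoisOK 99 200 (((41229 : ℕ) : ℝ) / ((10000 : ℕ) : ℝ)) (thr 14 15) 24 95 stQ_95 :=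
  sxQ_22 okQ_94 ckQ_95

theorem okQ_96 : PoisOK 99 200 (((41229 : ℕ) : ℝ) / ((10000 : ℕ) : ℝ)) (thr 14 15) 24 96 stQ_96 :=
  sxQ_22 okQ_95 ckQ_96

theorem okQ_97 : PoisOK 99 200 (((41229 : ℕ) : ℝ) / ((10000 : ℕ) : ℝ)) (thr 14 15) 24 97 stQ_97 :=
  sxQ_22 okQ_96 ckQ_97

theorem okQ_98 : PoisOK 99 200 (((41229 : ℕ) : ℝ) / ((10000 : ℕ) : ℝ)) (thr 14 15) 24 98 stQ_98 :=
  sxQ_22 okQ_97 ckQ_98

theorem okQ_99 : PoisOK 99 200 (((41229 : ℕ) : ℝ) / ((10000 : ℕ) : ℝ)) (thr 14 15) 24 99 stQ_99 :=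
  sxQ_22 okQ_98 ckQ_99

theorem okQ_100 : PoisOK 99 200 (((41229 : ℕ) : ℝ) / ((10000 : ℕ) : ℝ)) (thr 14 15) 24 100 stQ_100 :=
  sxQ_22 okQ_99 ckQ_100

theorem okQ_101 : PoisOK 99 200 (((41229 : ℕ) : ℝ) / ((10000 : ℕ) : ℝ)) (thr 14 15) 24 101 stQ_101 :=
  sxQ_22 okQ_100 ckQ_101

theorem okQ_102 : PoisOK 99 200 (((41229 : ℕ) : ℝ) / ((10000 : ℕ) : ℝ)) (thr 14 15) 24 102 stQ_102 :=
  sxQ_22 okQ_101 ckQ_102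

theorem okQ_103 : PoisOK 99 200 (((41229 : ℕ) : ℝ) / ((10000 : ℕ) : ℝ)) (thr 14 15) 24 103 stQ_103 :=
  sxQ_22 okQ_102 ckQ_103

theorem okQ_104 : PoisOK 99 200 (((41229 : ℕ) : ℝ) / ((10000 : ℕ) : ℝ)) (thr 14 15) 24 104 stQ_104 :=
  sxQ_22 okQ_103 ckQ_104

theorem okQ_105 : PoisOK 99 200 (((41229 : ℕ) : ℝ) / ((10000 : ℕ) : ℝ)) (thr 14 15) 24 105 stQ_105 :=
  sxQ_22 okQ_104 ckQ_105

theorem okQ_106 : PoisOK 99 200 (((41229 : ℕ) : ℝ) / ((10000 : ℕ) : ℝ)) (thr 14 15) 24 106 stQ_106 :=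
  sxQ_22 okQ_105 ckQ_106

theorem okQ_107 : PoisOK 99 200 (((41229 : ℕ) : ℝ) / ((10000 : ℕ) : ℝ)) (thr 14 15) 24 107 stQ_107 :=
  sxQ_22 okQ_106 ckQ_107

theorem okQ_108 : PoisOK 99 200 (((41229 : ℕ) : ℝ) / ((10000 : ℕ) : ℝ)) (thr 14 15) 24 108 stQ_108 :=
  sxQ_22 okQ_107 ckQ_108

theorem okQ_109 : PoisOK 99 200 (((41229 : ℕ) : ℝ) / ((10000 : ℕ) : ℝ)) (thr 14 15) 24 109 stQ_109 :=
  sxQ_22 okQ_108 ckQ_109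

theorem okQ_110 : PoisOK 99 200 (((41229 : ℕ) : ℝ) / ((10000 : ℕ) : ℝ)) (thr 14 15) 24 110 stQ_110 :=
  sxQ_22 okQ_109 ckQ_110

theorem okQ_111 : PoisOK 99 200 (((41229 : ℕ) : ℝ) / ((10000 : ℕ) : ℝ)) (thr 14 15) 24 111 stQ_111 :=
  sxQ_22 okQ_110 ckQ_111

theorem okQ_112 : PoisOK 99 200 (((41229 : ℕ) : ℝ) / ((10000 : ℕ) : ℝ)) (thr 14 15) 24 112 stQ_112 :=
  sxQ_22 okQ_111 ckQ_112

theorem okQ_113 : PoisOK 99 200 (((41229 : ℕ) : ℝ) / ((10000 : ℕ) : ℝ)) (thr 14 15) 24 113 stQ_113 :=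
  sxQ_22 okQ_112 ckQ_113

theorem okQ_114 : PoisOK 99 200 (((41229 : ℕ) : ℝ) / ((10000 : ℕ) : ℝ)) (thr 14 15) 24 114 stQ_114 :=
  sxQ_22 okQ_113 ckQ_114

set_option maxRecDepth 100000 in
theorem inQ : Nat.ble 1133146883190206489 (infoS 32 24 32 pw_14_15_70 stQ_114) = true := by decide +kernel

/-- the box Q -/
theorem boxQ {κ d : ℝ} (h1 : 49/100 ≤ κ) (h2 : κ ≤ 99/200) (hd : 0 ≤ d) (h : d * κ ^ 2 ≤ 1) :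
    ∑' T : GTree 114, poissonWeight d T * Mtree 3 (-κ) T ≤ 7/100 := by
  have hκ : 0 < κ := lt_of_lt_of_le (by norm_num) h1
  have h3 : d * κ ≤ 100/49 := by
    have h4 : d * κ * κ ≤ 1 := by
      calc d * κ * κ = d * κ ^ 2 := by ring
        _ ≤ 1 := h
    have h5 : 0 ≤ d * κ := by positivity
    have h6 : d * κ * (49/100) ≤ 1 := (mul_le_mul_of_nonneg_left h1 h5).trans h4
    linarith
  refine (pois_M (by norm_num) (by norm_num) (by norm_num) ptQ_2 (by norm_num) okQ_114 inQ hκ.le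
    (by push_cast; linarith) hd (by push_cast; linarith)).trans ?_
  norm_num

end NC

end Vale.Agent.P154.DE
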