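import Vale.Agent.P154.DE.EngD
import Vale.Agent.P154.DE.StR
import Vale.Agent.P154.DE.Pw3_4_56
import Vale.Agent.P154.DE.Pw8_9_56
import Vale.Agent.P154.DE.Tk1_2_3_4_56_3_4_14
import Vale.Agent.P154.DE.Tk1_2_3_4_56_8_9_14
import Vale.Agent.P154.DE.Tk1_2_8_9_56_8_9_14

/-!
# Steps 96 to 112
-/

namespace Vale.Agent.P154.DE

set_option maxRecDepth 100000

theorem ckR_97 : stN 141 14 56 pw_3_4_56 stR_96 14 stR_97 q4 tk1_2_3_4_56_3_4_14 tk1_2_3_4_56_3_4_14E tk1_2_3_4_56_3_4_14V = true := by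
  decide +kernel

theorem ckR_98 : stN 141 14 56 pw_3_4_56 stR_97 14 stR_98 q4 tk1_2_3_4_56_3_4_14 tk1_2_3_4_56_3_4_14E tk1_2_3_4_56_3_4_14V = true := by
  decide +kernel

theorem ckR_99 : stN 141 14 56 pw_3_4_56 stR_98 14 stR_99 q4 tk1_2_3_4_56_3_4_14 tk1_2_3_4_56_3_4_14E tk1_2_3_4_56_3_4_14V = true := by
  decide +kernel

theorem ckR_100 : stN 141 14 56 pw_3_4_56 stR_99 14 stR_100 q4 tk1_2_3_4_56_3_4_14 tk1_2_3_4_56_3_4_14E tk1_2_3_4_56_3_4_14V = true := by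
  decide +kernel

theorem ckR_101 : stN 141 14 56 pw_3_4_56 stR_100 14 stR_101 q4 tk1_2_3_4_56_3_4_14 tk1_2_3_4_56_3_4_14E tk1_2_3_4_56_3_4_14V = true := by
  decide +kernel

theorem ckR_102 : stN 141 14 56 pw_3_4_56 stR_101 14 stR_102 q4 tk1_2_3_4_56_3_4_14 tk1_2_3_4_56_3_4_14E tk1_2_3_4_56_3_4_14V = true := by
  decide +kernel

theorem ckR_103 : stN 141 14 56 pw_3_4_56 stR_102 14 stR_103 q4 tk1_2_3_4_56_3_4_14 tk1_2_3_4_56_3_4_14E tk1_2_3_4_56_3_4_14V = true := by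
  decide +kernel

theorem ckR_104 : stN 141 14 56 pw_3_4_56 stR_103 14 stR_104 q4 tk1_2_3_4_56_8_9_14 tk1_2_3_4_56_8_9_14E tk1_2_3_4_56_8_9_14V = true := by
  decide +kernel

theorem ckR_105 : stN 141 14 56 pw_8_9_56 stR_104 14 stR_105 q4 tk1_2_8_9_56_8_9_14 tk1_2_8_9_56_8_9_14E tk1_2_8_9_56_8_9_14V = true := by
  decide +kernel

theorem ckR_106 : stN 141 14 56 pw_8_9_56 stR_105 14 stR_106 q4 tk1_2_8_9_56_8_9_14 tk1_2_8_9_56_8_9_14E tk1_2_8_9_56_8_9_14V = true := by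
  decide +kernel

theorem ckR_107 : stN 141 14 56 pw_8_9_56 stR_106 14 stR_107 q4 tk1_2_8_9_56_8_9_14 tk1_2_8_9_56_8_9_14E tk1_2_8_9_56_8_9_14V = true := by
  decide +kernel

theorem ckR_108 : stN 141 14 56 pw_8_9_56 stR_107 14 stR_108 q4 tk1_2_8_9_56_8_9_14 tk1_2_8_9_56_8_9_14E tk1_2_8_9_56_8_9_14V = true := by
  decide +kernel

theorem ckR_109 : stN 141 14 56 pw_8_9_56 stR_108 14 stR_109 q4 tk1_2_8_9_56_8_9_14 tk1_2_8_9_56_8_9_14E tk1_2_8_9_56_8_9_14V = true := by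
  decide +kernel

theorem ckR_110 : stN 141 14 56 pw_8_9_56 stR_109 14 stR_110 q4 tk1_2_8_9_56_8_9_14 tk1_2_8_9_56_8_9_14E tk1_2_8_9_56_8_9_14V = true := by
  decide +kernel

theorem ckR_111 : stN 141 14 56 pw_8_9_56 stR_110 14 stR_111 q4 tk1_2_8_9_56_8_9_14 tk1_2_8_9_56_8_9_14E tk1_2_8_9_56_8_9_14V = true := by
  decide +kernel

theorem ckR_112 : stN 141 14 56 pw_8_9_56 stR_111 14 stR_112 q4 tk1_2_8_9_56_8_9_14 tk1_2_8_9_56_8_9_14E tk1_2_8_9_56_8_9_14V = true := by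
  decide +kernel

end Vale.Agent.P154.DE
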