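import Vale.Agent.P154.DE.EngD
import Vale.Agent.P154.DE.StR
import Vale.Agent.P154.DE.Pw8_9_56
import Vale.Agent.P154.DE.Pw12_13_56
import Vale.Agent.P154.DE.Tk1_2_8_9_56_8_9_14
import Vale.Agent.P154.DE.Tk1_2_8_9_56_12_13_14
import Vale.Agent.P154.DE.Tk1_2_12_13_56_12_13_14

/-!
# Steps 144 to 160
-/

namespace Vale.Agent.P154.DE

set_option maxRecDepth 100000

theorem ckR_145 : stN 141 14 56 pw_8_9_56 stR_144 14 stR_145 q4 tk1_2_8_9_56_8_9_14 tk1_2_8_9_56_8_9_14E tk1_2_8_9_56_8_9_14V = true := by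
  decide +kernel

theorem ckR_146 : stN 141 14 56 pw_8_9_56 stR_145 14 stR_146 q4 tk1_2_8_9_56_8_9_14 tk1_2_8_9_56_8_9_14E tk1_2_8_9_56_8_9_14V = true := by
  decide +kernel

theorem ckR_147 : stN 141 14 56 pw_8_9_56 stR_146 14 stR_147 q4 tk1_2_8_9_56_8_9_14 tk1_2_8_9_56_8_9_14E tk1_2_8_9_56_8_9_14V = true := by
  decide +kernel

theorem ckR_148 : stN 141 14 56 pw_8_9_56 stR_147 14 stR_148 q4 tk1_2_8_9_56_8_9_14 tk1_2_8_9_56_8_9_14E tk1_2_8_9_56_8_9_14V = true := by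
  decide +kernel

theorem ckR_149 : stN 141 14 56 pw_8_9_56 stR_148 14 stR_149 q4 tk1_2_8_9_56_8_9_14 tk1_2_8_9_56_8_9_14E tk1_2_8_9_56_8_9_14V = true := by
  decide +kernel

theorem ckR_150 : stN 141 14 56 pw_8_9_56 stR_149 14 stR_150 q4 tk1_2_8_9_56_8_9_14 tk1_2_8_9_56_8_9_14E tk1_2_8_9_56_8_9_14V = true := by
  decide +kernel

theorem ckR_151 : stN 141 14 56 pw_8_9_56 stR_150 14 stR_151 q4 tk1_2_8_9_56_8_9_14 tk1_2_8_9_56_8_9_14E tk1_2_8_9_56_8_9_14V = true := by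
  decide +kernel

theorem ckR_152 : stN 141 14 56 pw_8_9_56 stR_151 14 stR_152 q4 tk1_2_8_9_56_8_9_14 tk1_2_8_9_56_8_9_14E tk1_2_8_9_56_8_9_14V = true := by
  decide +kernel

theorem ckR_153 : stN 141 14 56 pw_8_9_56 stR_152 14 stR_153 q4 tk1_2_8_9_56_8_9_14 tk1_2_8_9_56_8_9_14E tk1_2_8_9_56_8_9_14V = true := by
  decide +kernel

theorem ckR_154 : stN 141 14 56 pw_8_9_56 stR_153 14 stR_154 q4 tk1_2_8_9_56_8_9_14 tk1_2_8_9_56_8_9_14E tk1_2_8_9_56_8_9_14V = true := by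
  decide +kernel

theorem ckR_155 : stN 141 14 56 pw_8_9_56 stR_154 14 stR_155 q4 tk1_2_8_9_56_12_13_14 tk1_2_8_9_56_12_13_14E tk1_2_8_9_56_12_13_14V = true := by
  decide +kernel

theorem ckR_156 : stN 141 14 56 pw_12_13_56 stR_155 14 stR_156 q4 tk1_2_12_13_56_12_13_14 tk1_2_12_13_56_12_13_14E tk1_2_12_13_56_12_13_14V = true := by
  decide +kernel

theorem ckR_157 : stN 141 14 56 pw_12_13_56 stR_156 14 stR_157 q4 tk1_2_12_13_56_12_13_14 tk1_2_12_13_56_12_13_14E tk1_2_12_13_56_12_13_14V = true := by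
  decide +kernel

theorem ckR_158 : stN 141 14 56 pw_12_13_56 stR_157 14 stR_158 q4 tk1_2_12_13_56_12_13_14 tk1_2_12_13_56_12_13_14E tk1_2_12_13_56_12_13_14V = true := by
  decide +kernel

theorem ckR_159 : stN 141 14 56 pw_12_13_56 stR_158 14 stR_159 q4 tk1_2_12_13_56_12_13_14 tk1_2_12_13_56_12_13_14E tk1_2_12_13_56_12_13_14V = true := by
  decide +kernel

theorem ckR_160 : stN 141 14 56 pw_12_13_56 stR_159 14 stR_160 q4 tk1_2_12_13_56_12_13_14 tk1_2_12_13_56_12_13_14E tk1_2_12_13_56_12_13_14V = true := by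
  decide +kernel

end Vale.Agent.P154.DE
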