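import Vale.Agent.P154.DE.Reg2
import Vale.Agent.P154.DE.SpR0
import Vale.Agent.P154.DE.SpR1
import Vale.Agent.P154.DE.SpR2
import Vale.Agent.P154.DE.SpR3
import Vale.Agent.P154.DE.SpR4
import Vale.Agent.P154.DE.SpR5
import Vale.Agent.P154.DE.SpR6
import Vale.Agent.P154.DE.SpR7
import Vale.Agent.P154.DE.SpR8
import Vale.Agent.P154.DE.SpR9
import Vale.Agent.P154.DE.SpR10
import Vale.Agent.P154.DE.SpR11
import Vale.Agent.P154.DE.Cp3_4_56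
import Vale.Agent.P154.DE.Cp8_9_56
import Vale.Agent.P154.DE.Cp12_13_56
import Vale.Agent.P154.DE.Ctk1_2_3_4_56_3_4_14
import Vale.Agent.P154.DE.Ctk1_2_3_4_56_8_9_14
import Vale.Agent.P154.DE.Ctk1_2_8_9_56_8_9_14
import Vale.Agent.P154.DE.Ctk1_2_8_9_56_12_13_14
import Vale.Agent.P154.DE.Ctk1_2_12_13_56_12_13_14

/-!
# Chain of the regular trees
-/

namespace Vale.Agent.P154.DE

noncomputable section NC

open Vale.Agent.P154.Up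
open scoped ENNReal NNReal

theorem ptR_0 : PT (thr 3 4) 30 32 pw_3_4_56 56 :=
  PT_of_chk (by norm_num) cp_3_4_56

theorem ptR_1 : PT (thr 8 9) 30 32 pw_8_9_56 56 :=
  PT_of_chk (by norm_num) cp_8_9_56

theorem ptR_2 : PT (thr 12 13) 30 32 pw_12_13_56 56 :=
  PT_of_chk (by norm_num) cp_12_13_56

theorem tbR_00 : TbOK 1 2 pw_3_4_56 56 pw_3_4_56 14 tk1_2_3_4_56_3_4_14 tk1_2_3_4_56_3_4_14E tk1_2_3_4_56_3_4_14V :=
  ⟨c1tk1_2_3_4_56_3_4_14, (TabS.toTab_len _ _).trans c2tk1_2_3_4_56_3_4_14, c3tk1_2_3_4_56_3_4_14, c4tk1_2_3_4_56_3_4_14, c5tk1_2_3_4_56_3_4_14⟩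

theorem sxR_00 {n S S' : ℕ} (hS : RegOK2 (thr 3 4) 14 n S)
    (h : stN 141 14 56 pw_3_4_56 S 14 S' q4 tk1_2_3_4_56_3_4_14 tk1_2_3_4_56_3_4_14E tk1_2_3_4_56_3_4_14V = true) :
    RegOK2 (thr 3 4) 14 (n + 1) S' :=
  reg_step2 ptR_0 (ptR_0.mono (by norm_num))
    tbR_00 (by norm_num) (by norm_num) (by norm_num) (by norm_num) hS h

theorem tbR_01 : TbOK 1 2 pw_3_4_56 56 pw_8_9_56 14 tk1_2_3_4_56_8_9_14 tk1_2_3_4_56_8_9_14E tk1_2_3_4_56_8_9_14V :=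
  ⟨c1tk1_2_3_4_56_8_9_14, (TabS.toTab_len _ _).trans c2tk1_2_3_4_56_8_9_14, c3tk1_2_3_4_56_8_9_14, c4tk1_2_3_4_56_8_9_14, c5tk1_2_3_4_56_8_9_14⟩

theorem sxR_01 {n S S' : ℕ} (hS : RegOK2 (thr 3 4) 14 n S)
    (h : stN 141 14 56 pw_3_4_56 S 14 S' q4 tk1_2_3_4_56_8_9_14 tk1_2_3_4_56_8_9_14E tk1_2_3_4_56_8_9_14V = true) :
    RegOK2 (thr 8 9) 14 (n + 1) S' :=
  reg_step2 ptR_0 (ptR_1.mono (by norm_num))
    tbR_01 (by norm_num) (by norm_num) (by norm_num) (by norm_num) hS h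

theorem tbR_11 : TbOK 1 2 pw_8_9_56 56 pw_8_9_56 14 tk1_2_8_9_56_8_9_14 tk1_2_8_9_56_8_9_14E tk1_2_8_9_56_8_9_14V :=
  ⟨c1tk1_2_8_9_56_8_9_14, (TabS.toTab_len _ _).trans c2tk1_2_8_9_56_8_9_14, c3tk1_2_8_9_56_8_9_14, c4tk1_2_8_9_56_8_9_14, c5tk1_2_8_9_56_8_9_14⟩

theorem sxR_11 {n S S' : ℕ} (hS : RegOK2 (thr 8 9) 14 n S)
    (h : stN 141 14 56 pw_8_9_56 S 14 S' q4 tk1_2_8_9_56_8_9_14 tk1_2_8_9_56_8_9_14E tk1_2_8_9_56_8_9_14V = true) :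
    RegOK2 (thr 8 9) 14 (n + 1) S' :=
  reg_step2 ptR_1 (ptR_1.mono (by norm_num))
    tbR_11 (by norm_num) (by norm_num) (by norm_num) (by norm_num) hS h

theorem tbR_12 : TbOK 1 2 pw_8_9_56 56 pw_12_13_56 14 tk1_2_8_9_56_12_13_14 tk1_2_8_9_56_12_13_14E tk1_2_8_9_56_12_13_14V :=
  ⟨c1tk1_2_8_9_56_12_13_14, (TabS.toTab_len _ _).trans c2tk1_2_8_9_56_12_13_14, c3tk1_2_8_9_56_12_13_14, c4tk1_2_8_9_56_12_13_14, c5tk1_2_8_9_56_12_13_14⟩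

theorem sxR_12 {n S S' : ℕ} (hS : RegOK2 (thr 8 9) 14 n S)
    (h : stN 141 14 56 pw_8_9_56 S 14 S' q4 tk1_2_8_9_56_12_13_14 tk1_2_8_9_56_12_13_14E tk1_2_8_9_56_12_13_14V = true) :
    RegOK2 (thr 12 13) 14 (n + 1) S' :=
  reg_step2 ptR_1 (ptR_2.mono (by norm_num))
    tbR_12 (by norm_num) (by norm_num) (by norm_num) (by norm_num) hS h

theorem tbR_22 : TbOK 1 2 pw_12_13_56 56 pw_12_13_56 14 tk1_2_12_13_56_12_13_14 tk1_2_12_13_56_12_13_14E tk1_2_12_13_56_12_13_14V :=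
  ⟨c1tk1_2_12_13_56_12_13_14, (TabS.toTab_len _ _).trans c2tk1_2_12_13_56_12_13_14, c3tk1_2_12_13_56_12_13_14, c4tk1_2_12_13_56_12_13_14, c5tk1_2_12_13_56_12_13_14⟩

theorem sxR_22 {n S S' : ℕ} (hS : RegOK2 (thr 12 13) 14 n S)
    (h : stN 141 14 56 pw_12_13_56 S 14 S' q4 tk1_2_12_13_56_12_13_14 tk1_2_12_13_56_12_13_14E tk1_2_12_13_56_12_13_14V = true) :
    RegOK2 (thr 12 13) 14 (n + 1) S' :=
  reg_step2 ptR_2 (ptR_2.mono (by norm_num))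
    tbR_22 (by norm_num) (by norm_num) (by norm_num) (by norm_num) hS h

theorem okR_0 : RegOK2 (thr 3 4) 14 0 stR_0 :=
  regOK2_zero _ _

theorem okR_1 : RegOK2 (thr 3 4) 14 1 stR_1 :=
  sxR_00 okR_0 ckR_1

theorem okR_2 : RegOK2 (thr 3 4) 14 2 stR_2 :=
  sxR_00 okR_1 ckR_2

theorem okR_3 : RegOK2 (thr 3 4) 14 3 stR_3 :=
  sxR_00 okR_2 ckR_3

theorem okR_4 : RegOK2 (thr 3 4) 14 4 stR_4 :=
  sxR_00 okR_3 ckR_4

theorem okR_5 : RegOK2 (thr 3 4) 14 5 stR_5 :=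
  sxR_00 okR_4 ckR_5

theorem okR_6 : RegOK2 (thr 3 4) 14 6 stR_6 :=
  sxR_00 okR_5 ckR_6

theorem okR_7 : RegOK2 (thr 3 4) 14 7 stR_7 :=
  sxR_00 okR_6 ckR_7

theorem okR_8 : RegOK2 (thr 3 4) 14 8 stR_8 :=
  sxR_00 okR_7 ckR_8

theorem okR_9 : RegOK2 (thr 3 4) 14 9 stR_9 :=
  sxR_00 okR_8 ckR_9

theorem okR_10 : RegOK2 (thr 3 4) 14 10 stR_10 :=
  sxR_00 okR_9 ckR_10

theorem okR_11 : RegOK2 (thr 3 4) 14 11 stR_11 :=
  sxR_00 okR_10 ckR_11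

theorem okR_12 : RegOK2 (thr 3 4) 14 12 stR_12 :=
  sxR_00 okR_11 ckR_12

theorem okR_13 : RegOK2 (thr 3 4) 14 13 stR_13 :=
  sxR_00 okR_12 ckR_13

theorem okR_14 : RegOK2 (thr 3 4) 14 14 stR_14 :=
  sxR_00 okR_13 ckR_14

theorem okR_15 : RegOK2 (thr 3 4) 14 15 stR_15 :=
  sxR_00 okR_14 ckR_15

theorem okR_16 : RegOK2 (thr 3 4) 14 16 stR_16 :=
  sxR_00 okR_15 ckR_16

theorem okR_17 : RegOK2 (thr 3 4) 14 17 stR_17 :=
  sxR_00 okR_16 ckR_17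

theorem okR_18 : RegOK2 (thr 3 4) 14 18 stR_18 :=
  sxR_00 okR_17 ckR_18

theorem okR_19 : RegOK2 (thr 3 4) 14 19 stR_19 :=
  sxR_00 okR_18 ckR_19

theorem okR_20 : RegOK2 (thr 3 4) 14 20 stR_20 :=
  sxR_00 okR_19 ckR_20

theorem okR_21 : RegOK2 (thr 3 4) 14 21 stR_21 :=
  sxR_00 okR_20 ckR_21

theorem okR_22 : RegOK2 (thr 3 4) 14 22 stR_22 :=
  sxR_00 okR_21 ckR_22

theorem okR_23 : RegOK2 (thr 3 4) 14 23 stR_23 :=
  sxR_00 okR_22 ckR_23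

theorem okR_24 : RegOK2 (thr 3 4) 14 24 stR_24 :=
  sxR_00 okR_23 ckR_24

theorem okR_25 : RegOK2 (thr 3 4) 14 25 stR_25 :=
  sxR_00 okR_24 ckR_25

theorem okR_26 : RegOK2 (thr 3 4) 14 26 stR_26 :=
  sxR_00 okR_25 ckR_26

theorem okR_27 : RegOK2 (thr 3 4) 14 27 stR_27 :=
  sxR_00 okR_26 ckR_27

theorem okR_28 : RegOK2 (thr 3 4) 14 28 stR_28 :=
  sxR_00 okR_27 ckR_28

theorem okR_29 : RegOK2 (thr 3 4) 14 29 stR_29 :=
  sxR_00 okR_28 ckR_29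

theorem okR_30 : RegOK2 (thr 3 4) 14 30 stR_30 :=
  sxR_00 okR_29 ckR_30

theorem okR_31 : RegOK2 (thr 3 4) 14 31 stR_31 :=
  sxR_00 okR_30 ckR_31

theorem okR_32 : RegOK2 (thr 3 4) 14 32 stR_32 :=
  sxR_00 okR_31 ckR_32

theorem okR_33 : RegOK2 (thr 3 4) 14 33 stR_33 :=
  sxR_00 okR_32 ckR_33

theorem okR_34 : RegOK2 (thr 3 4) 14 34 stR_34 :=
  sxR_00 okR_33 ckR_34

theorem okR_35 : RegOK2 (thr 3 4) 14 35 stR_35 :=
  sxR_00 okR_34 ckR_35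

theorem okR_36 : RegOK2 (thr 3 4) 14 36 stR_36 :=
  sxR_00 okR_35 ckR_36

theorem okR_37 : RegOK2 (thr 3 4) 14 37 stR_37 :=
  sxR_00 okR_36 ckR_37

theorem okR_38 : RegOK2 (thr 3 4) 14 38 stR_38 :=
  sxR_00 okR_37 ckR_38

theorem okR_39 : RegOK2 (thr 3 4) 14 39 stR_39 :=
  sxR_00 okR_38 ckR_39

theorem okR_40 : RegOK2 (thr 3 4) 14 40 stR_40 :=
  sxR_00 okR_39 ckR_40

theorem okR_41 : RegOK2 (thr 3 4) 14 41 stR_41 :=
  sxR_00 okR_40 ckR_41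

theorem okR_42 : RegOK2 (thr 3 4) 14 42 stR_42 :=
  sxR_00 okR_41 ckR_42

theorem okR_43 : RegOK2 (thr 3 4) 14 43 stR_43 :=
  sxR_00 okR_42 ckR_43

theorem okR_44 : RegOK2 (thr 3 4) 14 44 stR_44 :=
  sxR_00 okR_43 ckR_44

theorem okR_45 : RegOK2 (thr 3 4) 14 45 stR_45 :=
  sxR_00 okR_44 ckR_45

theorem okR_46 : RegOK2 (thr 3 4) 14 46 stR_46 :=
  sxR_00 okR_45 ckR_46

theorem okR_47 : RegOK2 (thr 3 4) 14 47 stR_47 :=
  sxR_00 okR_46 ckR_47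

theorem okR_48 : RegOK2 (thr 3 4) 14 48 stR_48 :=
  sxR_00 okR_47 ckR_48

theorem okR_49 : RegOK2 (thr 3 4) 14 49 stR_49 :=
  sxR_00 okR_48 ckR_49

theorem okR_50 : RegOK2 (thr 3 4) 14 50 stR_50 :=
  sxR_00 okR_49 ckR_50

theorem okR_51 : RegOK2 (thr 3 4) 14 51 stR_51 :=
  sxR_00 okR_50 ckR_51

theorem okR_52 : RegOK2 (thr 3 4) 14 52 stR_52 :=
  sxR_00 okR_51 ckR_52

theorem okR_53 : RegOK2 (thr 3 4) 14 53 stR_53 :=
  sxR_00 okR_52 ckR_53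

theorem okR_54 : RegOK2 (thr 3 4) 14 54 stR_54 :=
  sxR_00 okR_53 ckR_54

theorem okR_55 : RegOK2 (thr 3 4) 14 55 stR_55 :=
  sxR_00 okR_54 ckR_55

theorem okR_56 : RegOK2 (thr 3 4) 14 56 stR_56 :=
  sxR_00 okR_55 ckR_56

theorem okR_57 : RegOK2 (thr 3 4) 14 57 stR_57 :=
  sxR_00 okR_56 ckR_57

theorem okR_58 : RegOK2 (thr 3 4) 14 58 stR_58 :=
  sxR_00 okR_57 ckR_58

theorem okR_59 : RegOK2 (thr 3 4) 14 59 stR_59 :=
  sxR_00 okR_58 ckR_59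

theorem okR_60 : RegOK2 (thr 3 4) 14 60 stR_60 :=
  sxR_00 okR_59 ckR_60

theorem okR_61 : RegOK2 (thr 3 4) 14 61 stR_61 :=
  sxR_00 okR_60 ckR_61

theorem okR_62 : RegOK2 (thr 3 4) 14 62 stR_62 :=
  sxR_00 okR_61 ckR_62

theorem okR_63 : RegOK2 (thr 3 4) 14 63 stR_63 :=
  sxR_00 okR_62 ckR_63

theorem okR_64 : RegOK2 (thr 3 4) 14 64 stR_64 :=
  sxR_00 okR_63 ckR_64

theorem okR_65 : RegOK2 (thr 3 4) 14 65 stR_65 :=
  sxR_00 okR_64 ckR_65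

theorem okR_66 : RegOK2 (thr 3 4) 14 66 stR_66 :=
  sxR_00 okR_65 ckR_66

theorem okR_67 : RegOK2 (thr 3 4) 14 67 stR_67 :=
  sxR_00 okR_66 ckR_67

theorem okR_68 : RegOK2 (thr 3 4) 14 68 stR_68 :=
  sxR_00 okR_67 ckR_68

theorem okR_69 : RegOK2 (thr 3 4) 14 69 stR_69 :=
  sxR_00 okR_68 ckR_69

theorem okR_70 : RegOK2 (thr 3 4) 14 70 stR_70 :=
  sxR_00 okR_69 ckR_70

theorem okR_71 : RegOK2 (thr 3 4) 14 71 stR_71 :=
  sxR_00 okR_70 ckR_71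

theorem okR_72 : RegOK2 (thr 3 4) 14 72 stR_72 :=
  sxR_00 okR_71 ckR_72

theorem okR_73 : RegOK2 (thr 3 4) 14 73 stR_73 :=
  sxR_00 okR_72 ckR_73

theorem okR_74 : RegOK2 (thr 3 4) 14 74 stR_74 :=
  sxR_00 okR_73 ckR_74

theorem okR_75 : RegOK2 (thr 3 4) 14 75 stR_75 :=
  sxR_00 okR_74 ckR_75

theorem okR_76 : RegOK2 (thr 3 4) 14 76 stR_76 :=
  sxR_00 okR_75 ckR_76

theorem okR_77 : RegOK2 (thr 3 4) 14 77 stR_77 :=
  sxR_00 okR_76 ckR_77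

theorem okR_78 : RegOK2 (thr 3 4) 14 78 stR_78 :=
  sxR_00 okR_77 ckR_78

theorem okR_79 : RegOK2 (thr 3 4) 14 79 stR_79 :=
  sxR_00 okR_78 ckR_79

theorem okR_80 : RegOK2 (thr 3 4) 14 80 stR_80 :=
  sxR_00 okR_79 ckR_80

theorem okR_81 : RegOK2 (thr 3 4) 14 81 stR_81 :=
  sxR_00 okR_80 ckR_81

theorem okR_82 : RegOK2 (thr 3 4) 14 82 stR_82 :=
  sxR_00 okR_81 ckR_82

theorem okR_83 : RegOK2 (thr 3 4) 14 83 stR_83 :=
  sxR_00 okR_82 ckR_83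

theorem okR_84 : RegOK2 (thr 3 4) 14 84 stR_84 :=
  sxR_00 okR_83 ckR_84

theorem okR_85 : RegOK2 (thr 3 4) 14 85 stR_85 :=
  sxR_00 okR_84 ckR_85

theorem okR_86 : RegOK2 (thr 3 4) 14 86 stR_86 :=
  sxR_00 okR_85 ckR_86

theorem okR_87 : RegOK2 (thr 3 4) 14 87 stR_87 :=
  sxR_00 okR_86 ckR_87

theorem okR_88 : RegOK2 (thr 3 4) 14 88 stR_88 :=
  sxR_00 okR_87 ckR_88

theorem okR_89 : RegOK2 (thr 3 4) 14 89 stR_89 :=
  sxR_00 okR_88 ckR_89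

theorem okR_90 : RegOK2 (thr 3 4) 14 90 stR_90 :=
  sxR_00 okR_89 ckR_90

theorem okR_91 : RegOK2 (thr 3 4) 14 91 stR_91 :=
  sxR_00 okR_90 ckR_91

theorem okR_92 : RegOK2 (thr 3 4) 14 92 stR_92 :=
  sxR_00 okR_91 ckR_92

theorem okR_93 : RegOK2 (thr 3 4) 14 93 stR_93 :=
  sxR_00 okR_92 ckR_93

theorem okR_94 : RegOK2 (thr 3 4) 14 94 stR_94 :=
  sxR_00 okR_93 ckR_94

theorem okR_95 : RegOK2 (thr 3 4) 14 95 stR_95 :=
  sxR_00 okR_94 ckR_95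

theorem okR_96 : RegOK2 (thr 3 4) 14 96 stR_96 :=
  sxR_00 okR_95 ckR_96

theorem okR_97 : RegOK2 (thr 3 4) 14 97 stR_97 :=
  sxR_00 okR_96 ckR_97

theorem okR_98 : RegOK2 (thr 3 4) 14 98 stR_98 :=
  sxR_00 okR_97 ckR_98

theorem okR_99 : RegOK2 (thr 3 4) 14 99 stR_99 :=
  sxR_00 okR_98 ckR_99

theorem okR_100 : RegOK2 (thr 3 4) 14 100 stR_100 :=
  sxR_00 okR_99 ckR_100

theorem okR_101 : RegOK2 (thr 3 4) 14 101 stR_101 :=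
  sxR_00 okR_100 ckR_101

theorem okR_102 : RegOK2 (thr 3 4) 14 102 stR_102 :=
  sxR_00 okR_101 ckR_102

theorem okR_103 : RegOK2 (thr 3 4) 14 103 stR_103 :=
  sxR_00 okR_102 ckR_103

theorem okR_104 : RegOK2 (thr 8 9) 14 104 stR_104 :=
  sxR_01 okR_103 ckR_104

theorem okR_105 : RegOK2 (thr 8 9) 14 105 stR_105 :=
  sxR_11 okR_104 ckR_105

theorem okR_106 : RegOK2 (thr 8 9) 14 106 stR_106 :=
  sxR_11 okR_105 ckR_106

theorem okR_107 : RegOK2 (thr 8 9) 14 107 stR_107 :=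
  sxR_11 okR_106 ckR_107

theorem okR_108 : RegOK2 (thr 8 9) 14 108 stR_108 :=
  sxR_11 okR_107 ckR_108

theorem okR_109 : RegOK2 (thr 8 9) 14 109 stR_109 :=
  sxR_11 okR_108 ckR_109

theorem okR_110 : RegOK2 (thr 8 9) 14 110 stR_110 :=
  sxR_11 okR_109 ckR_110

theorem okR_111 : RegOK2 (thr 8 9) 14 111 stR_111 :=
  sxR_11 okR_110 ckR_111

theorem okR_112 : RegOK2 (thr 8 9) 14 112 stR_112 :=
  sxR_11 okR_111 ckR_112

theorem okR_113 : RegOK2 (thr 8 9) 14 113 stR_113 :=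
  sxR_11 okR_112 ckR_113

theorem okR_114 : RegOK2 (thr 8 9) 14 114 stR_114 :=
  sxR_11 okR_113 ckR_114

theorem okR_115 : RegOK2 (thr 8 9) 14 115 stR_115 :=
  sxR_11 okR_114 ckR_115

theorem okR_116 : RegOK2 (thr 8 9) 14 116 stR_116 :=
  sxR_11 okR_115 ckR_116

theorem okR_117 : RegOK2 (thr 8 9) 14 117 stR_117 :=
  sxR_11 okR_116 ckR_117

theorem okR_118 : RegOK2 (thr 8 9) 14 118 stR_118 :=
  sxR_11 okR_117 ckR_118

theorem okR_119 : RegOK2 (thr 8 9) 14 119 stR_119 :=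
  sxR_11 okR_118 ckR_119

theorem okR_120 : RegOK2 (thr 8 9) 14 120 stR_120 :=
  sxR_11 okR_119 ckR_120

theorem okR_121 : RegOK2 (thr 8 9) 14 121 stR_121 :=
  sxR_11 okR_120 ckR_121

theorem okR_122 : RegOK2 (thr 8 9) 14 122 stR_122 :=
  sxR_11 okR_121 ckR_122

theorem okR_123 : RegOK2 (thr 8 9) 14 123 stR_123 :=
  sxR_11 okR_122 ckR_123

theorem okR_124 : RegOK2 (thr 8 9) 14 124 stR_124 :=
  sxR_11 okR_123 ckR_124

theorem okR_125 : RegOK2 (thr 8 9) 14 125 stR_125 :=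
  sxR_11 okR_124 ckR_125

theorem okR_126 : RegOK2 (thr 8 9) 14 126 stR_126 :=
  sxR_11 okR_125 ckR_126

theorem okR_127 : RegOK2 (thr 8 9) 14 127 stR_127 :=
  sxR_11 okR_126 ckR_127

theorem okR_128 : RegOK2 (thr 8 9) 14 128 stR_128 :=
  sxR_11 okR_127 ckR_128

theorem okR_129 : RegOK2 (thr 8 9) 14 129 stR_129 :=
  sxR_11 okR_128 ckR_129

theorem okR_130 : RegOK2 (thr 8 9) 14 130 stR_130 :=
  sxR_11 okR_129 ckR_130

theorem okR_131 : RegOK2 (thr 8 9) 14 131 stR_131 :=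
  sxR_11 okR_130 ckR_131

theorem okR_132 : RegOK2 (thr 8 9) 14 132 stR_132 :=
  sxR_11 okR_131 ckR_132

theorem okR_133 : RegOK2 (thr 8 9) 14 133 stR_133 :=
  sxR_11 okR_132 ckR_133

theorem okR_134 : RegOK2 (thr 8 9) 14 134 stR_134 :=
  sxR_11 okR_133 ckR_134

theorem okR_135 : RegOK2 (thr 8 9) 14 135 stR_135 :=
  sxR_11 okR_134 ckR_135

theorem okR_136 : RegOK2 (thr 8 9) 14 136 stR_136 :=
  sxR_11 okR_135 ckR_136

theorem okR_137 : RegOK2 (thr 8 9) 14 137 stR_137 :=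
  sxR_11 okR_136 ckR_137

theorem okR_138 : RegOK2 (thr 8 9) 14 138 stR_138 :=
  sxR_11 okR_137 ckR_138

theorem okR_139 : RegOK2 (thr 8 9) 14 139 stR_139 :=
  sxR_11 okR_138 ckR_139

theorem okR_140 : RegOK2 (thr 8 9) 14 140 stR_140 :=
  sxR_11 okR_139 ckR_140

theorem okR_141 : RegOK2 (thr 8 9) 14 141 stR_141 :=
  sxR_11 okR_140 ckR_141

theorem okR_142 : RegOK2 (thr 8 9) 14 142 stR_142 :=
  sxR_11 okR_141 ckR_142

theorem okR_143 : RegOK2 (thr 8 9) 14 143 stR_143 :=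
  sxR_11 okR_142 ckR_143

theorem okR_144 : RegOK2 (thr 8 9) 14 144 stR_144 :=
  sxR_11 okR_143 ckR_144

theorem okR_145 : RegOK2 (thr 8 9) 14 145 stR_145 :=
  sxR_11 okR_144 ckR_145

theorem okR_146 : RegOK2 (thr 8 9) 14 146 stR_146 :=
  sxR_11 okR_145 ckR_146

theorem okR_147 : RegOK2 (thr 8 9) 14 147 stR_147 :=
  sxR_11 okR_146 ckR_147

theorem okR_148 : RegOK2 (thr 8 9) 14 148 stR_148 :=
  sxR_11 okR_147 ckR_148

theorem okR_149 : RegOK2 (thr 8 9) 14 149 stR_149 :=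
  sxR_11 okR_148 ckR_149

theorem okR_150 : RegOK2 (thr 8 9) 14 150 stR_150 :=
  sxR_11 okR_149 ckR_150

theorem okR_151 : RegOK2 (thr 8 9) 14 151 stR_151 :=
  sxR_11 okR_150 ckR_151

theorem okR_152 : RegOK2 (thr 8 9) 14 152 stR_152 :=
  sxR_11 okR_151 ckR_152

theorem okR_153 : RegOK2 (thr 8 9) 14 153 stR_153 :=
  sxR_11 okR_152 ckR_153

theorem okR_154 : RegOK2 (thr 8 9) 14 154 stR_154 :=
  sxR_11 okR_153 ckR_154

theorem okR_155 : RegOK2 (thr 12 13) 14 155 stR_155 :=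
  sxR_12 okR_154 ckR_155

theorem okR_156 : RegOK2 (thr 12 13) 14 156 stR_156 :=
  sxR_22 okR_155 ckR_156

theorem okR_157 : RegOK2 (thr 12 13) 14 157 stR_157 :=
  sxR_22 okR_156 ckR_157

theorem okR_158 : RegOK2 (thr 12 13) 14 158 stR_158 :=
  sxR_22 okR_157 ckR_158

theorem okR_159 : RegOK2 (thr 12 13) 14 159 stR_159 :=
  sxR_22 okR_158 ckR_159

theorem okR_160 : RegOK2 (thr 12 13) 14 160 stR_160 :=
  sxR_22 okR_159 ckR_160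

theorem okR_161 : RegOK2 (thr 12 13) 14 161 stR_161 :=
  sxR_22 okR_160 ckR_161

theorem okR_162 : RegOK2 (thr 12 13) 14 162 stR_162 :=
  sxR_22 okR_161 ckR_162

theorem okR_163 : RegOK2 (thr 12 13) 14 163 stR_163 :=
  sxR_22 okR_162 ckR_163

theorem okR_164 : RegOK2 (thr 12 13) 14 164 stR_164 :=
  sxR_22 okR_163 ckR_164

theorem okR_165 : RegOK2 (thr 12 13) 14 165 stR_165 :=
  sxR_22 okR_164 ckR_165

theorem okR_166 : RegOK2 (thr 12 13) 14 166 stR_166 :=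
  sxR_22 okR_165 ckR_166

theorem okR_167 : RegOK2 (thr 12 13) 14 167 stR_167 :=
  sxR_22 okR_166 ckR_167

theorem okR_168 : RegOK2 (thr 12 13) 14 168 stR_168 :=
  sxR_22 okR_167 ckR_168

theorem okR_169 : RegOK2 (thr 12 13) 14 169 stR_169 :=
  sxR_22 okR_168 ckR_169

theorem okR_170 : RegOK2 (thr 12 13) 14 170 stR_170 :=
  sxR_22 okR_169 ckR_170

theorem okR_171 : RegOK2 (thr 12 13) 14 171 stR_171 :=
  sxR_22 okR_170 ckR_171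

theorem okR_172 : RegOK2 (thr 12 13) 14 172 stR_172 :=
  sxR_22 okR_171 ckR_172

theorem okR_173 : RegOK2 (thr 12 13) 14 173 stR_173 :=
  sxR_22 okR_172 ckR_173

theorem okR_174 : RegOK2 (thr 12 13) 14 174 stR_174 :=
  sxR_22 okR_173 ckR_174

theorem okR_175 : RegOK2 (thr 12 13) 14 175 stR_175 :=
  sxR_22 okR_174 ckR_175

theorem okR_176 : RegOK2 (thr 12 13) 14 176 stR_176 :=
  sxR_22 okR_175 ckR_176

theorem okR_177 : RegOK2 (thr 12 13) 14 177 stR_177 :=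
  sxR_22 okR_176 ckR_177

theorem okR_178 : RegOK2 (thr 12 13) 14 178 stR_178 :=
  sxR_22 okR_177 ckR_178

theorem okR_179 : RegOK2 (thr 12 13) 14 179 stR_179 :=
  sxR_22 okR_178 ckR_179

theorem okR_180 : RegOK2 (thr 12 13) 14 180 stR_180 :=
  sxR_22 okR_179 ckR_180

theorem okR_181 : RegOK2 (thr 12 13) 14 181 stR_181 :=
  sxR_22 okR_180 ckR_181

theorem okR_182 : RegOK2 (thr 12 13) 14 182 stR_182 :=
  sxR_22 okR_181 ckR_182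

theorem okR_183 : RegOK2 (thr 12 13) 14 183 stR_183 :=
  sxR_22 okR_182 ckR_183

theorem okR_184 : RegOK2 (thr 12 13) 14 184 stR_184 :=
  sxR_22 okR_183 ckR_184

theorem okR_185 : RegOK2 (thr 12 13) 14 185 stR_185 :=
  sxR_22 okR_184 ckR_185

theorem okR_186 : RegOK2 (thr 12 13) 14 186 stR_186 :=
  sxR_22 okR_185 ckR_186

theorem okR_187 : RegOK2 (thr 12 13) 14 187 stR_187 :=
  sxR_22 okR_186 ckR_187

theorem okR_188 : RegOK2 (thr 12 13) 14 188 stR_188 :=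
  sxR_22 okR_187 ckR_188

theorem okR_189 : RegOK2 (thr 12 13) 14 189 stR_189 :=
  sxR_22 okR_188 ckR_189

theorem okR_190 : RegOK2 (thr 12 13) 14 190 stR_190 :=
  sxR_22 okR_189 ckR_190

set_option maxRecDepth 100000 in
theorem inR : Nat.ble 1133321839028530578 (infoS 32 14 32 pw_12_13_56 stR_190) = true := by decide +kernel

/-- the regular bound -/
theorem reg_bound2 {κ : ℝ} (h0 : 0 ≤ κ) (h : κ ≤ 1 / 2) {d : ℕ} (hd : d ≤ 4) :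
    Mtree 3 (-κ) (dary d 190) ≤ 17/250 :=
  (reg_M2 ptR_2 (by norm_num) okR_190 inR h0 h hd).trans (by norm_num)

end NC

end Vale.Agent.P154.DE
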