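import Vale.Agent.P154.DE.EngD
import Vale.Agent.P154.DE.WqS
import Vale.Agent.P154.DE.StS
import Vale.Agent.P154.DE.Pw9_11_30
import Vale.Agent.P154.DE.Pw9_10_56
import Vale.Agent.P154.DE.Tk49_100_9_11_30_9_11_10
import Vale.Agent.P154.DE.Tk49_100_9_11_30_9_10_20
import Vale.Agent.P154.DE.Tk49_100_9_10_56_9_10_20

/-!
# Steps 0 to 36
-/

namespace Vale.Agent.P154.DE

set_option maxRecDepth 100000

theorem ckS_1 : stN 81 10 30 pw_9_11_30 stS_0 10 stS_1 wqS tk49_100_9_11_30_9_11_10 tk49_100_9_11_30_9_11_10E tk49_100_9_11_30_9_11_10V = true := by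
  decide +kernel

theorem ckS_2 : stN 81 10 30 pw_9_11_30 stS_1 10 stS_2 wqS tk49_100_9_11_30_9_11_10 tk49_100_9_11_30_9_11_10E tk49_100_9_11_30_9_11_10V = true := by
  decide +kernel

theorem ckS_3 : stN 81 10 30 pw_9_11_30 stS_2 10 stS_3 wqS tk49_100_9_11_30_9_11_10 tk49_100_9_11_30_9_11_10E tk49_100_9_11_30_9_11_10V = true := by
  decide +kernel

theorem ckS_4 : stN 81 10 30 pw_9_11_30 stS_3 10 stS_4 wqS tk49_100_9_11_30_9_11_10 tk49_100_9_11_30_9_11_10E tk49_100_9_11_30_9_11_10V = true := by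
  decide +kernel

theorem ckS_5 : stN 81 10 30 pw_9_11_30 stS_4 10 stS_5 wqS tk49_100_9_11_30_9_11_10 tk49_100_9_11_30_9_11_10E tk49_100_9_11_30_9_11_10V = true := by
  decide +kernel

theorem ckS_6 : stN 81 10 30 pw_9_11_30 stS_5 10 stS_6 wqS tk49_100_9_11_30_9_11_10 tk49_100_9_11_30_9_11_10E tk49_100_9_11_30_9_11_10V = true := by
  decide +kernel

theorem ckS_7 : stN 81 10 30 pw_9_11_30 stS_6 10 stS_7 wqS tk49_100_9_11_30_9_11_10 tk49_100_9_11_30_9_11_10E tk49_100_9_11_30_9_11_10V = true := by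
  decide +kernel

theorem ckS_8 : stN 81 10 30 pw_9_11_30 stS_7 10 stS_8 wqS tk49_100_9_11_30_9_11_10 tk49_100_9_11_30_9_11_10E tk49_100_9_11_30_9_11_10V = true := by
  decide +kernel

theorem ckS_9 : stN 81 10 30 pw_9_11_30 stS_8 10 stS_9 wqS tk49_100_9_11_30_9_11_10 tk49_100_9_11_30_9_11_10E tk49_100_9_11_30_9_11_10V = true := by
  decide +kernel

theorem ckS_10 : stN 81 10 30 pw_9_11_30 stS_9 10 stS_10 wqS tk49_100_9_11_30_9_11_10 tk49_100_9_11_30_9_11_10E tk49_100_9_11_30_9_11_10V = true := by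
  decide +kernel

theorem ckS_11 : stN 81 10 30 pw_9_11_30 stS_10 10 stS_11 wqS tk49_100_9_11_30_9_11_10 tk49_100_9_11_30_9_11_10E tk49_100_9_11_30_9_11_10V = true := by
  decide +kernel

theorem ckS_12 : stN 81 10 30 pw_9_11_30 stS_11 10 stS_12 wqS tk49_100_9_11_30_9_11_10 tk49_100_9_11_30_9_11_10E tk49_100_9_11_30_9_11_10V = true := by
  decide +kernel

theorem ckS_13 : stN 81 10 30 pw_9_11_30 stS_12 10 stS_13 wqS tk49_100_9_11_30_9_11_10 tk49_100_9_11_30_9_11_10E tk49_100_9_11_30_9_11_10V = true := by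
  decide +kernel

theorem ckS_14 : stN 81 10 30 pw_9_11_30 stS_13 10 stS_14 wqS tk49_100_9_11_30_9_11_10 tk49_100_9_11_30_9_11_10E tk49_100_9_11_30_9_11_10V = true := by
  decide +kernel

theorem ckS_15 : stN 81 10 30 pw_9_11_30 stS_14 10 stS_15 wqS tk49_100_9_11_30_9_11_10 tk49_100_9_11_30_9_11_10E tk49_100_9_11_30_9_11_10V = true := by
  decide +kernel

theorem ckS_16 : stN 81 10 30 pw_9_11_30 stS_15 10 stS_16 wqS tk49_100_9_11_30_9_11_10 tk49_100_9_11_30_9_11_10E tk49_100_9_11_30_9_11_10V = true := by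
  decide +kernel

theorem ckS_17 : stN 81 10 30 pw_9_11_30 stS_16 10 stS_17 wqS tk49_100_9_11_30_9_11_10 tk49_100_9_11_30_9_11_10E tk49_100_9_11_30_9_11_10V = true := by
  decide +kernel

theorem ckS_18 : stN 81 10 30 pw_9_11_30 stS_17 10 stS_18 wqS tk49_100_9_11_30_9_11_10 tk49_100_9_11_30_9_11_10E tk49_100_9_11_30_9_11_10V = true := by
  decide +kernel

theorem ckS_19 : stN 81 10 30 pw_9_11_30 stS_18 10 stS_19 wqS tk49_100_9_11_30_9_11_10 tk49_100_9_11_30_9_11_10E tk49_100_9_11_30_9_11_10V = true := by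
  decide +kernel

theorem ckS_20 : stN 81 10 30 pw_9_11_30 stS_19 10 stS_20 wqS tk49_100_9_11_30_9_11_10 tk49_100_9_11_30_9_11_10E tk49_100_9_11_30_9_11_10V = true := by
  decide +kernel

theorem ckS_21 : stN 81 10 30 pw_9_11_30 stS_20 10 stS_21 wqS tk49_100_9_11_30_9_11_10 tk49_100_9_11_30_9_11_10E tk49_100_9_11_30_9_11_10V = true := by
  decide +kernel

theorem ckS_22 : stN 81 10 30 pw_9_11_30 stS_21 10 stS_22 wqS tk49_100_9_11_30_9_11_10 tk49_100_9_11_30_9_11_10E tk49_100_9_11_30_9_11_10V = true := by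
  decide +kernel

theorem ckS_23 : stN 81 10 30 pw_9_11_30 stS_22 10 stS_23 wqS tk49_100_9_11_30_9_11_10 tk49_100_9_11_30_9_11_10E tk49_100_9_11_30_9_11_10V = true := by
  decide +kernel

theorem ckS_24 : stN 81 10 30 pw_9_11_30 stS_23 10 stS_24 wqS tk49_100_9_11_30_9_11_10 tk49_100_9_11_30_9_11_10E tk49_100_9_11_30_9_11_10V = true := by
  decide +kernel

theorem ckS_25 : stN 81 10 30 pw_9_11_30 stS_24 10 stS_25 wqS tk49_100_9_11_30_9_11_10 tk49_100_9_11_30_9_11_10E tk49_100_9_11_30_9_11_10V = true := by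
  decide +kernel

theorem ckS_26 : stN 81 10 30 pw_9_11_30 stS_25 10 stS_26 wqS tk49_100_9_11_30_9_11_10 tk49_100_9_11_30_9_11_10E tk49_100_9_11_30_9_11_10V = true := by
  decide +kernel

theorem ckS_27 : stN 81 10 30 pw_9_11_30 stS_26 10 stS_27 wqS tk49_100_9_11_30_9_11_10 tk49_100_9_11_30_9_11_10E tk49_100_9_11_30_9_11_10V = true := by
  decide +kernel

theorem ckS_28 : stN 81 10 30 pw_9_11_30 stS_27 10 stS_28 wqS tk49_100_9_11_30_9_11_10 tk49_100_9_11_30_9_11_10E tk49_100_9_11_30_9_11_10V = true := by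
  decide +kernel

theorem ckS_29 : stN 81 10 30 pw_9_11_30 stS_28 10 stS_29 wqS tk49_100_9_11_30_9_11_10 tk49_100_9_11_30_9_11_10E tk49_100_9_11_30_9_11_10V = true := by
  decide +kernel

theorem ckS_30 : stN 81 10 30 pw_9_11_30 stS_29 10 stS_30 wqS tk49_100_9_11_30_9_11_10 tk49_100_9_11_30_9_11_10E tk49_100_9_11_30_9_11_10V = true := by
  decide +kernel

theorem ckS_31 : stN 81 10 30 pw_9_11_30 stS_30 10 stS_31 wqS tk49_100_9_11_30_9_11_10 tk49_100_9_11_30_9_11_10E tk49_100_9_11_30_9_11_10V = true := by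
  decide +kernel

theorem ckS_32 : stN 81 10 30 pw_9_11_30 stS_31 10 stS_32 wqS tk49_100_9_11_30_9_11_10 tk49_100_9_11_30_9_11_10E tk49_100_9_11_30_9_11_10V = true := by
  decide +kernel

theorem ckS_33 : stN 81 10 30 pw_9_11_30 stS_32 10 stS_33 wqS tk49_100_9_11_30_9_11_10 tk49_100_9_11_30_9_11_10E tk49_100_9_11_30_9_11_10V = true := by
  decide +kernel

theorem ckS_34 : stN 81 10 30 pw_9_11_30 stS_33 10 stS_34 wqS tk49_100_9_11_30_9_11_10 tk49_100_9_11_30_9_11_10E tk49_100_9_11_30_9_11_10V = true := by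
  decide +kernel

theorem ckS_35 : stN 81 10 30 pw_9_11_30 stS_34 20 stS_35 wqS tk49_100_9_11_30_9_10_20 tk49_100_9_11_30_9_10_20E tk49_100_9_11_30_9_10_20V = true := by
  decide +kernel

theorem ckS_36 : stN 153 20 56 pw_9_10_56 stS_35 20 stS_36 wqS tk49_100_9_10_56_9_10_20 tk49_100_9_10_56_9_10_20E tk49_100_9_10_56_9_10_20V = true := by
  decide +kernel

end Vale.Agent.P154.DE
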