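import Vale.Agent.P154.DE.Pois2
import Vale.Agent.P154.DE.SpS0
import Vale.Agent.P154.DE.SpS1
import Vale.Agent.P154.DE.SpS2
import Vale.Agent.P154.DE.SpS3
import Vale.Agent.P154.DE.SpS4
import Vale.Agent.P154.DE.SpS5
import Vale.Agent.P154.DE.SpS6
import Vale.Agent.P154.DE.SpS7
import Vale.Agent.P154.DE.SpS8
import Vale.Agent.P154.DE.SpS9
import Vale.Agent.P154.DE.Cp9_11_30
import Vale.Agent.P154.DE.Cp9_10_56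
import Vale.Agent.P154.DE.Cp14_15_70
import Vale.Agent.P154.DE.Ctk49_100_9_11_30_9_11_10
import Vale.Agent.P154.DE.Ctk49_100_9_11_30_9_10_20
import Vale.Agent.P154.DE.Ctk49_100_9_10_56_9_10_20
import Vale.Agent.P154.DE.Ctk49_100_9_10_56_14_15_24
import Vale.Agent.P154.DE.Ctk49_100_14_15_70_14_15_24

/-!
# Chain of the box S: channel parameter at most 49/100, at least 97/200
-/

namespace Vale.Agent.P154.DE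

noncomputable section NC

open Vale.Agent.P154.Up
open scoped ENNReal NNReal

theorem ewS : ((17152680155414138 : ℕ) : ℝ) / ((1152921504606846976 : ℕ) : ℝ) ≤ Real.exp (-(((42079 : ℕ) : ℝ) / ((10000 : ℕ) : ℝ))) := by
  refine exp_low (x := 42079 / 80000) (u := 16921290009941 / 10000000000000) (by norm_num) (by norm_num) (by norm_num) ?_ ?_
  · norm_num [Finset.sum_range_succ, Nat.factorial]
  · norm_num

set_option maxRecDepth 100000 in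
theorem woS : WtOK wqS (((42079 : ℕ) : ℝ) / ((10000 : ℕ) : ℝ)) :=
  ⟨wts_ok (Dn := 42079) (Dd := 10000) (by norm_num) (by norm_num) (by norm_num) rfl ewS (by decide +kernel),
    by decide +kernel⟩

theorem ptS_0 : PT (thr 9 11) 30 32 pw_9_11_30 30 :=
  PT_of_chk (by norm_num) cp_9_11_30

theorem ptS_1 : PT (thr 9 10) 30 32 pw_9_10_56 56 :=
  PT_of_chk (by norm_num) cp_9_10_56

theorem ptS_2 : PT (thr 14 15) 30 32 pw_14_15_70 70 :=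
  PT_of_chk (by norm_num) cp_14_15_70

theorem tbS_00 : TbOK 49 100 pw_9_11_30 30 pw_9_11_30 10 tk49_100_9_11_30_9_11_10 tk49_100_9_11_30_9_11_10E tk49_100_9_11_30_9_11_10V :=
  ⟨c1tk49_100_9_11_30_9_11_10, (TabS.toTab_len _ _).trans c2tk49_100_9_11_30_9_11_10, c3tk49_100_9_11_30_9_11_10, c4tk49_100_9_11_30_9_11_10, c5tk49_100_9_11_30_9_11_10⟩

theorem sxS_00 {n S S' : ℕ} (hS : PoisOK 49 100 (((42079 : ℕ) : ℝ) / ((10000 : ℕ) : ℝ)) (thr 9 11) 10 n S)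
    (h : stN 81 10 30 pw_9_11_30 S 10 S' wqS tk49_100_9_11_30_9_11_10 tk49_100_9_11_30_9_11_10E tk49_100_9_11_30_9_11_10V = true) :
    PoisOK 49 100 (((42079 : ℕ) : ℝ) / ((10000 : ℕ) : ℝ)) (thr 9 11) 10 (n + 1) S' :=
  pois_step2 (by norm_num) (by norm_num) (by norm_num) (by norm_num) ptS_0 (ptS_0.mono (by norm_num))
    tbS_00 (by norm_num) (by norm_num) (by norm_num) (by norm_num) woS hS h

theorem tbS_01 : TbOK 49 100 pw_9_11_30 30 pw_9_10_56 20 tk49_100_9_11_30_9_10_20 tk49_100_9_11_30_9_10_20E tk49_100_9_11_30_9_10_20V :=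
  ⟨c1tk49_100_9_11_30_9_10_20, (TabS.toTab_len _ _).trans c2tk49_100_9_11_30_9_10_20, c3tk49_100_9_11_30_9_10_20, c4tk49_100_9_11_30_9_10_20, c5tk49_100_9_11_30_9_10_20⟩

theorem sxS_01 {n S S' : ℕ} (hS : PoisOK 49 100 (((42079 : ℕ) : ℝ) / ((10000 : ℕ) : ℝ)) (thr 9 11) 10 n S)
    (h : stN 81 10 30 pw_9_11_30 S 20 S' wqS tk49_100_9_11_30_9_10_20 tk49_100_9_11_30_9_10_20E tk49_100_9_11_30_9_10_20V = true) :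
    PoisOK 49 100 (((42079 : ℕ) : ℝ) / ((10000 : ℕ) : ℝ)) (thr 9 10) 20 (n + 1) S' :=
  pois_step2 (by norm_num) (by norm_num) (by norm_num) (by norm_num) ptS_0 (ptS_1.mono (by norm_num))
    tbS_01 (by norm_num) (by norm_num) (by norm_num) (by norm_num) woS hS h

theorem tbS_11 : TbOK 49 100 pw_9_10_56 56 pw_9_10_56 20 tk49_100_9_10_56_9_10_20 tk49_100_9_10_56_9_10_20E tk49_100_9_10_56_9_10_20V :=
  ⟨c1tk49_100_9_10_56_9_10_20, (TabS.toTab_len _ _).trans c2tk49_100_9_10_56_9_10_20, c3tk49_100_9_10_56_9_10_20, c4tk49_100_9_10_56_9_10_20, c5tk49_100_9_10_56_9_10_20⟩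

theorem sxS_11 {n S S' : ℕ} (hS : PoisOK 49 100 (((42079 : ℕ) : ℝ) / ((10000 : ℕ) : ℝ)) (thr 9 10) 20 n S)
    (h : stN 153 20 56 pw_9_10_56 S 20 S' wqS tk49_100_9_10_56_9_10_20 tk49_100_9_10_56_9_10_20E tk49_100_9_10_56_9_10_20V = true) :
    PoisOK 49 100 (((42079 : ℕ) : ℝ) / ((10000 : ℕ) : ℝ)) (thr 9 10) 20 (n + 1) S' :=
  pois_step2 (by norm_num) (by norm_num) (by norm_num) (by norm_num) ptS_1 (ptS_1.mono (by norm_num))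
    tbS_11 (by norm_num) (by norm_num) (by norm_num) (by norm_num) woS hS h

theorem tbS_12 : TbOK 49 100 pw_9_10_56 56 pw_14_15_70 24 tk49_100_9_10_56_14_15_24 tk49_100_9_10_56_14_15_24E tk49_100_9_10_56_14_15_24V :=
  ⟨c1tk49_100_9_10_56_14_15_24, (TabS.toTab_len _ _).trans c2tk49_100_9_10_56_14_15_24, c3tk49_100_9_10_56_14_15_24, c4tk49_100_9_10_56_14_15_24, c5tk49_100_9_10_56_14_15_24⟩

theorem sxS_12 {n S S' : ℕ} (hS : PoisOK 49 100 (((42079 : ℕ) : ℝ) / ((10000 : ℕ) : ℝ)) (thr 9 10) 20 n S)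
    (h : stN 153 20 56 pw_9_10_56 S 24 S' wqS tk49_100_9_10_56_14_15_24 tk49_100_9_10_56_14_15_24E tk49_100_9_10_56_14_15_24V = true) :
    PoisOK 49 100 (((42079 : ℕ) : ℝ) / ((10000 : ℕ) : ℝ)) (thr 14 15) 24 (n + 1) S' :=
  pois_step2 (by norm_num) (by norm_num) (by norm_num) (by norm_num) ptS_1 (ptS_2.mono (by norm_num))
    tbS_12 (by norm_num) (by norm_num) (by norm_num) (by norm_num) woS hS h

theorem tbS_22 : TbOK 49 100 pw_14_15_70 70 pw_14_15_70 24 tk49_100_14_15_70_14_15_24 tk49_100_14_15_70_14_15_24E tk49_100_14_15_70_14_15_24V :=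
  ⟨c1tk49_100_14_15_70_14_15_24, (TabS.toTab_len _ _).trans c2tk49_100_14_15_70_14_15_24, c3tk49_100_14_15_70_14_15_24, c4tk49_100_14_15_70_14_15_24, c5tk49_100_14_15_70_14_15_24⟩

theorem sxS_22 {n S S' : ℕ} (hS : PoisOK 49 100 (((42079 : ℕ) : ℝ) / ((10000 : ℕ) : ℝ)) (thr 14 15) 24 n S)
    (h : stN 189 24 70 pw_14_15_70 S 24 S' wqS tk49_100_14_15_70_14_15_24 tk49_100_14_15_70_14_15_24E tk49_100_14_15_70_14_15_24V = true) :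
    PoisOK 49 100 (((42079 : ℕ) : ℝ) / ((10000 : ℕ) : ℝ)) (thr 14 15) 24 (n + 1) S' :=
  pois_step2 (by norm_num) (by norm_num) (by norm_num) (by norm_num) ptS_2 (ptS_2.mono (by norm_num))
    tbS_22 (by norm_num) (by norm_num) (by norm_num) (by norm_num) woS hS h

theorem okS_0 : PoisOK 49 100 (((42079 : ℕ) : ℝ) / ((10000 : ℕ) : ℝ)) (thr 9 11) 10 0 stS_0 :=
  poisOK_zero _ _ _ _ _

theorem okS_1 : PoisOK 49 100 (((42079 : ℕ) : ℝ) / ((10000 : ℕ) : ℝ)) (thr 9 11) 10 1 stS_1 :=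
  sxS_00 okS_0 ckS_1

theorem okS_2 : PoisOK 49 100 (((42079 : ℕ) : ℝ) / ((10000 : ℕ) : ℝ)) (thr 9 11) 10 2 stS_2 :=
  sxS_00 okS_1 ckS_2

theorem okS_3 : PoisOK 49 100 (((42079 : ℕ) : ℝ) / ((10000 : ℕ) : ℝ)) (thr 9 11) 10 3 stS_3 :=
  sxS_00 okS_2 ckS_3

theorem okS_4 : PoisOK 49 100 (((42079 : ℕ) : ℝ) / ((10000 : ℕ) : ℝ)) (thr 9 11) 10 4 stS_4 :=
  sxS_00 okS_3 ckS_4

theorem okS_5 : PoisOK 49 100 (((42079 : ℕ) : ℝ) / ((10000 : ℕ) : ℝ)) (thr 9 11) 10 5 stS_5 :=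
  sxS_00 okS_4 ckS_5

theorem okS_6 : PoisOK 49 100 (((42079 : ℕ) : ℝ) / ((10000 : ℕ) : ℝ)) (thr 9 11) 10 6 stS_6 :=
  sxS_00 okS_5 ckS_6

theorem okS_7 : PoisOK 49 100 (((42079 : ℕ) : ℝ) / ((10000 : ℕ) : ℝ)) (thr 9 11) 10 7 stS_7 :=
  sxS_00 okS_6 ckS_7

theorem okS_8 : PoisOK 49 100 (((42079 : ℕ) : ℝ) / ((10000 : ℕ) : ℝ)) (thr 9 11) 10 8 stS_8 :=
  sxS_00 okS_7 ckS_8

theorem okS_9 : PoisOK 49 100 (((42079 : ℕ) : ℝ) / ((10000 : ℕ) : ℝ)) (thr 9 11) 10 9 stS_9 :=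
  sxS_00 okS_8 ckS_9

theorem okS_10 : PoisOK 49 100 (((42079 : ℕ) : ℝ) / ((10000 : ℕ) : ℝ)) (thr 9 11) 10 10 stS_10 :=
  sxS_00 okS_9 ckS_10

theorem okS_11 : PoisOK 49 100 (((42079 : ℕ) : ℝ) / ((10000 : ℕ) : ℝ)) (thr 9 11) 10 11 stS_11 :=
  sxS_00 okS_10 ckS_11

theorem okS_12 : PoisOK 49 100 (((42079 : ℕ) : ℝ) / ((10000 : ℕ) : ℝ)) (thr 9 11) 10 12 stS_12 :=
  sxS_00 okS_11 ckS_12

theorem okS_13 : PoisOK 49 100 (((42079 : ℕ) : ℝ) / ((10000 : ℕ) : ℝ)) (thr 9 11) 10 13 stS_13 :=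
  sxS_00 okS_12 ckS_13

theorem okS_14 : PoisOK 49 100 (((42079 : ℕ) : ℝ) / ((10000 : ℕ) : ℝ)) (thr 9 11) 10 14 stS_14 :=
  sxS_00 okS_13 ckS_14

theorem okS_15 : PoisOK 49 100 (((42079 : ℕ) : ℝ) / ((10000 : ℕ) : ℝ)) (thr 9 11) 10 15 stS_15 :=
  sxS_00 okS_14 ckS_15

theorem okS_16 : PoisOK 49 100 (((42079 : ℕ) : ℝ) / ((10000 : ℕ) : ℝ)) (thr 9 11) 10 16 stS_16 :=
  sxS_00 okS_15 ckS_16

theorem okS_17 : PoisOK 49 100 (((42079 : ℕ) : ℝ) / ((10000 : ℕ) : ℝ)) (thr 9 11) 10 17 stS_17 :=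
  sxS_00 okS_16 ckS_17

theorem okS_18 : PoisOK 49 100 (((42079 : ℕ) : ℝ) / ((10000 : ℕ) : ℝ)) (thr 9 11) 10 18 stS_18 :=
  sxS_00 okS_17 ckS_18

theorem okS_19 : PoisOK 49 100 (((42079 : ℕ) : ℝ) / ((10000 : ℕ) : ℝ)) (thr 9 11) 10 19 stS_19 :=
  sxS_00 okS_18 ckS_19

theorem okS_20 : PoisOK 49 100 (((42079 : ℕ) : ℝ) / ((10000 : ℕ) : ℝ)) (thr 9 11) 10 20 stS_20 :=
  sxS_00 okS_19 ckS_20

theorem okS_21 : PoisOK 49 100 (((42079 : ℕ) : ℝ) / ((10000 : ℕ) : ℝ)) (thr 9 11) 10 21 stS_21 :=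
  sxS_00 okS_20 ckS_21

theorem okS_22 : PoisOK 49 100 (((42079 : ℕ) : ℝ) / ((10000 : ℕ) : ℝ)) (thr 9 11) 10 22 stS_22 :=
  sxS_00 okS_21 ckS_22

theorem okS_23 : PoisOK 49 100 (((42079 : ℕ) : ℝ) / ((10000 : ℕ) : ℝ)) (thr 9 11) 10 23 stS_23 :=
  sxS_00 okS_22 ckS_23

theorem okS_24 : PoisOK 49 100 (((42079 : ℕ) : ℝ) / ((10000 : ℕ) : ℝ)) (thr 9 11) 10 24 stS_24 :=
  sxS_00 okS_23 ckS_24

theorem okS_25 : PoisOK 49 100 (((42079 : ℕ) : ℝ) / ((10000 : ℕ) : ℝ)) (thr 9 11) 10 25 stS_25 :=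
  sxS_00 okS_24 ckS_25

theorem okS_26 : PoisOK 49 100 (((42079 : ℕ) : ℝ) / ((10000 : ℕ) : ℝ)) (thr 9 11) 10 26 stS_26 :=
  sxS_00 okS_25 ckS_26

theorem okS_27 : PoisOK 49 100 (((42079 : ℕ) : ℝ) / ((10000 : ℕ) : ℝ)) (thr 9 11) 10 27 stS_27 :=
  sxS_00 okS_26 ckS_27

theorem okS_28 : PoisOK 49 100 (((42079 : ℕ) : ℝ) / ((10000 : ℕ) : ℝ)) (thr 9 11) 10 28 stS_28 :=
  sxS_00 okS_27 ckS_28

theorem okS_29 : PoisOK 49 100 (((42079 : ℕ) : ℝ) / ((10000 : ℕ) : ℝ)) (thr 9 11) 10 29 stS_29 :=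
  sxS_00 okS_28 ckS_29

theorem okS_30 : PoisOK 49 100 (((42079 : ℕ) : ℝ) / ((10000 : ℕ) : ℝ)) (thr 9 11) 10 30 stS_30 :=
  sxS_00 okS_29 ckS_30

theorem okS_31 : PoisOK 49 100 (((42079 : ℕ) : ℝ) / ((10000 : ℕ) : ℝ)) (thr 9 11) 10 31 stS_31 :=
  sxS_00 okS_30 ckS_31

theorem okS_32 : PoisOK 49 100 (((42079 : ℕ) : ℝ) / ((10000 : ℕ) : ℝ)) (thr 9 11) 10 32 stS_32 :=
  sxS_00 okS_31 ckS_32

theorem okS_33 : PoisOK 49 100 (((42079 : ℕ) : ℝ) / ((10000 : ℕ) : ℝ)) (thr 9 11) 10 33 stS_33 :=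
  sxS_00 okS_32 ckS_33

theorem okS_34 : PoisOK 49 100 (((42079 : ℕ) : ℝ) / ((10000 : ℕ) : ℝ)) (thr 9 11) 10 34 stS_34 :=
  sxS_00 okS_33 ckS_34

theorem okS_35 : PoisOK 49 100 (((42079 : ℕ) : ℝ) / ((10000 : ℕ) : ℝ)) (thr 9 10) 20 35 stS_35 :=
  sxS_01 okS_34 ckS_35

theorem okS_36 : PoisOK 49 100 (((42079 : ℕ) : ℝ) / ((10000 : ℕ) : ℝ)) (thr 9 10) 20 36 stS_36 :=
  sxS_11 okS_35 ckS_36

theorem okS_37 : PoisOK 49 100 (((42079 : ℕ) : ℝ) / ((10000 : ℕ) : ℝ)) (thr 9 10) 20 37 stS_37 :=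
  sxS_11 okS_36 ckS_37

theorem okS_38 : PoisOK 49 100 (((42079 : ℕ) : ℝ) / ((10000 : ℕ) : ℝ)) (thr 9 10) 20 38 stS_38 :=
  sxS_11 okS_37 ckS_38

theorem okS_39 : PoisOK 49 100 (((42079 : ℕ) : ℝ) / ((10000 : ℕ) : ℝ)) (thr 9 10) 20 39 stS_39 :=
  sxS_11 okS_38 ckS_39

theorem okS_40 : PoisOK 49 100 (((42079 : ℕ) : ℝ) / ((10000 : ℕ) : ℝ)) (thr 9 10) 20 40 stS_40 :=
  sxS_11 okS_39 ckS_40

theorem okS_41 : PoisOK 49 100 (((42079 : ℕ) : ℝ) / ((10000 : ℕ) : ℝ)) (thr 9 10) 20 41 stS_41 :=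
  sxS_11 okS_40 ckS_41

theorem okS_42 : PoisOK 49 100 (((42079 : ℕ) : ℝ) / ((10000 : ℕ) : ℝ)) (thr 9 10) 20 42 stS_42 :=
  sxS_11 okS_41 ckS_42

theorem okS_43 : PoisOK 49 100 (((42079 : ℕ) : ℝ) / ((10000 : ℕ) : ℝ)) (thr 9 10) 20 43 stS_43 :=
  sxS_11 okS_42 ckS_43

theorem okS_44 : PoisOK 49 100 (((42079 : ℕ) : ℝ) / ((10000 : ℕ) : ℝ)) (thr 9 10) 20 44 stS_44 :=
  sxS_11 okS_43 ckS_44

theorem okS_45 : PoisOK 49 100 (((42079 : ℕ) : ℝ) / ((10000 : ℕ) : ℝ)) (thr 9 10) 20 45 stS_45 :=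
  sxS_11 okS_44 ckS_45

theorem okS_46 : PoisOK 49 100 (((42079 : ℕ) : ℝ) / ((10000 : ℕ) : ℝ)) (thr 9 10) 20 46 stS_46 :=
  sxS_11 okS_45 ckS_46

theorem okS_47 : PoisOK 49 100 (((42079 : ℕ) : ℝ) / ((10000 : ℕ) : ℝ)) (thr 9 10) 20 47 stS_47 :=
  sxS_11 okS_46 ckS_47

theorem okS_48 : PoisOK 49 100 (((42079 : ℕ) : ℝ) / ((10000 : ℕ) : ℝ)) (thr 9 10) 20 48 stS_48 :=
  sxS_11 okS_47 ckS_48

theorem okS_49 : PoisOK 49 100 (((42079 : ℕ) : ℝ) / ((10000 : ℕ) : ℝ)) (thr 9 10) 20 49 stS_49 :=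
  sxS_11 okS_48 ckS_49

theorem okS_50 : PoisOK 49 100 (((42079 : ℕ) : ℝ) / ((10000 : ℕ) : ℝ)) (thr 9 10) 20 50 stS_50 :=
  sxS_11 okS_49 ckS_50

theorem okS_51 : PoisOK 49 100 (((42079 : ℕ) : ℝ) / ((10000 : ℕ) : ℝ)) (thr 9 10) 20 51 stS_51 :=
  sxS_11 okS_50 ckS_51

theorem okS_52 : PoisOK 49 100 (((42079 : ℕ) : ℝ) / ((10000 : ℕ) : ℝ)) (thr 9 10) 20 52 stS_52 :=
  sxS_11 okS_51 ckS_52

theorem okS_53 : PoisOK 49 100 (((42079 : ℕ) : ℝ) / ((10000 : ℕ) : ℝ)) (thr 9 10) 20 53 stS_53 :=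
  sxS_11 okS_52 ckS_53

theorem okS_54 : PoisOK 49 100 (((42079 : ℕ) : ℝ) / ((10000 : ℕ) : ℝ)) (thr 9 10) 20 54 stS_54 :=
  sxS_11 okS_53 ckS_54

theorem okS_55 : PoisOK 49 100 (((42079 : ℕ) : ℝ) / ((10000 : ℕ) : ℝ)) (thr 9 10) 20 55 stS_55 :=
  sxS_11 okS_54 ckS_55

theorem okS_56 : PoisOK 49 100 (((42079 : ℕ) : ℝ) / ((10000 : ℕ) : ℝ)) (thr 9 10) 20 56 stS_56 :=
  sxS_11 okS_55 ckS_56

theorem okS_57 : PoisOK 49 100 (((42079 : ℕ) : ℝ) / ((10000 : ℕ) : ℝ)) (thr 9 10) 20 57 stS_57 :=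
  sxS_11 okS_56 ckS_57

theorem okS_58 : PoisOK 49 100 (((42079 : ℕ) : ℝ) / ((10000 : ℕ) : ℝ)) (thr 9 10) 20 58 stS_58 :=
  sxS_11 okS_57 ckS_58

theorem okS_59 : PoisOK 49 100 (((42079 : ℕ) : ℝ) / ((10000 : ℕ) : ℝ)) (thr 9 10) 20 59 stS_59 :=
  sxS_11 okS_58 ckS_59

theorem okS_60 : PoisOK 49 100 (((42079 : ℕ) : ℝ) / ((10000 : ℕ) : ℝ)) (thr 9 10) 20 60 stS_60 :=
  sxS_11 okS_59 ckS_60

theorem okS_61 : PoisOK 49 100 (((42079 : ℕ) : ℝ) / ((10000 : ℕ) : ℝ)) (thr 9 10) 20 61 stS_61 :=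
  sxS_11 okS_60 ckS_61

theorem okS_62 : PoisOK 49 100 (((42079 : ℕ) : ℝ) / ((10000 : ℕ) : ℝ)) (thr 9 10) 20 62 stS_62 :=
  sxS_11 okS_61 ckS_62

theorem okS_63 : PoisOK 49 100 (((42079 : ℕ) : ℝ) / ((10000 : ℕ) : ℝ)) (thr 9 10) 20 63 stS_63 :=
  sxS_11 okS_62 ckS_63

theorem okS_64 : PoisOK 49 100 (((42079 : ℕ) : ℝ) / ((10000 : ℕ) : ℝ)) (thr 9 10) 20 64 stS_64 :=
  sxS_11 okS_63 ckS_64

theorem okS_65 : PoisOK 49 100 (((42079 : ℕ) : ℝ) / ((10000 : ℕ) : ℝ)) (thr 9 10) 20 65 stS_65 :=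
  sxS_11 okS_64 ckS_65

theorem okS_66 : PoisOK 49 100 (((42079 : ℕ) : ℝ) / ((10000 : ℕ) : ℝ)) (thr 9 10) 20 66 stS_66 :=
  sxS_11 okS_65 ckS_66

theorem okS_67 : PoisOK 49 100 (((42079 : ℕ) : ℝ) / ((10000 : ℕ) : ℝ)) (thr 9 10) 20 67 stS_67 :=
  sxS_11 okS_66 ckS_67

theorem okS_68 : PoisOK 49 100 (((42079 : ℕ) : ℝ) / ((10000 : ℕ) : ℝ)) (thr 9 10) 20 68 stS_68 :=
  sxS_11 okS_67 ckS_68

theorem okS_69 : PoisOK 49 100 (((42079 : ℕ) : ℝ) / ((10000 : ℕ) : ℝ)) (thr 9 10) 20 69 stS_69 :=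
  sxS_11 okS_68 ckS_69

theorem okS_70 : PoisOK 49 100 (((42079 : ℕ) : ℝ) / ((10000 : ℕ) : ℝ)) (thr 9 10) 20 70 stS_70 :=
  sxS_11 okS_69 ckS_70

theorem okS_71 : PoisOK 49 100 (((42079 : ℕ) : ℝ) / ((10000 : ℕ) : ℝ)) (thr 9 10) 20 71 stS_71 :=
  sxS_11 okS_70 ckS_71

theorem okS_72 : PoisOK 49 100 (((42079 : ℕ) : ℝ) / ((10000 : ℕ) : ℝ)) (thr 9 10) 20 72 stS_72 :=
  sxS_11 okS_71 ckS_72

theorem okS_73 : PoisOK 49 100 (((42079 : ℕ) : ℝ) / ((10000 : ℕ) : ℝ)) (thr 9 10) 20 73 stS_73 :=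
  sxS_11 okS_72 ckS_73

theorem okS_74 : PoisOK 49 100 (((42079 : ℕ) : ℝ) / ((10000 : ℕ) : ℝ)) (thr 9 10) 20 74 stS_74 :=
  sxS_11 okS_73 ckS_74

theorem okS_75 : PoisOK 49 100 (((42079 : ℕ) : ℝ) / ((10000 : ℕ) : ℝ)) (thr 9 10) 20 75 stS_75 :=
  sxS_11 okS_74 ckS_75

theorem okS_76 : PoisOK 49 100 (((42079 : ℕ) : ℝ) / ((10000 : ℕ) : ℝ)) (thr 9 10) 20 76 stS_76 :=
  sxS_11 okS_75 ckS_76

theorem okS_77 : PoisOK 49 100 (((42079 : ℕ) : ℝ) / ((10000 : ℕ) : ℝ)) (thr 9 10) 20 77 stS_77 :=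
  sxS_11 okS_76 ckS_77

theorem okS_78 : PoisOK 49 100 (((42079 : ℕ) : ℝ) / ((10000 : ℕ) : ℝ)) (thr 9 10) 20 78 stS_78 :=
  sxS_11 okS_77 ckS_78

theorem okS_79 : PoisOK 49 100 (((42079 : ℕ) : ℝ) / ((10000 : ℕ) : ℝ)) (thr 9 10) 20 79 stS_79 :=
  sxS_11 okS_78 ckS_79

theorem okS_80 : PoisOK 49 100 (((42079 : ℕ) : ℝ) / ((10000 : ℕ) : ℝ)) (thr 9 10) 20 80 stS_80 :=
  sxS_11 okS_79 ckS_80

theorem okS_81 : PoisOK 49 100 (((42079 : ℕ) : ℝ) / ((10000 : ℕ) : ℝ)) (thr 9 10) 20 81 stS_81 :=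
  sxS_11 okS_80 ckS_81

theorem okS_82 : PoisOK 49 100 (((42079 : ℕ) : ℝ) / ((10000 : ℕ) : ℝ)) (thr 14 15) 24 82 stS_82 :=
  sxS_12 okS_81 ckS_82

theorem okS_83 : PoisOK 49 100 (((42079 : ℕ) : ℝ) / ((10000 : ℕ) : ℝ)) (thr 14 15) 24 83 stS_83 :=
  sxS_22 okS_82 ckS_83

theorem okS_84 : PoisOK 49 100 (((42079 : ℕ) : ℝ) / ((10000 : ℕ) : ℝ)) (thr 14 15) 24 84 stS_84 :=
  sxS_22 okS_83 ckS_84

theorem okS_85 : PoisOK 49 100 (((42079 : ℕ) : ℝ) / ((10000 : ℕ) : ℝ)) (thr 14 15) 24 85 stS_85 :=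
  sxS_22 okS_84 ckS_85

theorem okS_86 : PoisOK 49 100 (((42079 : ℕ) : ℝ) / ((10000 : ℕ) : ℝ)) (thr 14 15) 24 86 stS_86 :=
  sxS_22 okS_85 ckS_86

theorem okS_87 : PoisOK 49 100 (((42079 : ℕ) : ℝ) / ((10000 : ℕ) : ℝ)) (thr 14 15) 24 87 stS_87 :=
  sxS_22 okS_86 ckS_87

theorem okS_88 : PoisOK 49 100 (((42079 : ℕ) : ℝ) / ((10000 : ℕ) : ℝ)) (thr 14 15) 24 88 stS_88 :=
  sxS_22 okS_87 ckS_88

theorem okS_89 : PoisOK 49 100 (((42079 : ℕ) : ℝ) / ((10000 : ℕ) : ℝ)) (thr 14 15) 24 89 stS_89 :=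
  sxS_22 okS_88 ckS_89

theorem okS_90 : PoisOK 49 100 (((42079 : ℕ) : ℝ) / ((10000 : ℕ) : ℝ)) (thr 14 15) 24 90 stS_90 :=
  sxS_22 okS_89 ckS_90

theorem okS_91 : PoisOK 49 100 (((42079 : ℕ) : ℝ) / ((10000 : ℕ) : ℝ)) (thr 14 15) 24 91 stS_91 :=
  sxS_22 okS_90 ckS_91

theorem okS_92 : PoisOK 49 100 (((42079 : ℕ) : ℝ) / ((10000 : ℕ) : ℝ)) (thr 14 15) 24 92 stS_92 :=
  sxS_22 okS_91 ckS_92

theorem okS_93 : PoisOK 49 100 (((42079 : ℕ) : ℝ) / ((10000 : ℕ) : ℝ)) (thr 14 15) 24 93 stS_93 :=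
  sxS_22 okS_92 ckS_93

theorem okS_94 : PoisOK 49 100 (((42079 : ℕ) : ℝ) / ((10000 : ℕ) : ℝ)) (thr 14 15) 24 94 stS_94 :=
  sxS_22 okS_93 ckS_94

theorem okS_95 : PoisOK 49 100 (((42079 : ℕ) : ℝ) / ((10000 : ℕ) : ℝ)) (thr 14 15) 24 95 stS_95 :=
  sxS_22 okS_94 ckS_95

theorem okS_96 : PoisOK 49 100 (((42079 : ℕ) : ℝ) / ((10000 : ℕ) : ℝ)) (thr 14 15) 24 96 stS_96 :=
  sxS_22 okS_95 ckS_96

theorem okS_97 : PoisOK 49 100 (((42079 : ℕ) : ℝ) / ((10000 : ℕ) : ℝ)) (thr 14 15) 24 97 stS_97 :=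
  sxS_22 okS_96 ckS_97

theorem okS_98 : PoisOK 49 100 (((42079 : ℕ) : ℝ) / ((10000 : ℕ) : ℝ)) (thr 14 15) 24 98 stS_98 :=
  sxS_22 okS_97 ckS_98

theorem okS_99 : PoisOK 49 100 (((42079 : ℕ) : ℝ) / ((10000 : ℕ) : ℝ)) (thr 14 15) 24 99 stS_99 :=
  sxS_22 okS_98 ckS_99

theorem okS_100 : PoisOK 49 100 (((42079 : ℕ) : ℝ) / ((10000 : ℕ) : ℝ)) (thr 14 15) 24 100 stS_100 :=
  sxS_22 okS_99 ckS_100

theorem okS_101 : PoisOK 49 100 (((42079 : ℕ) : ℝ) / ((10000 : ℕ) : ℝ)) (thr 14 15) 24 101 stS_101 :=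
  sxS_22 okS_100 ckS_101

theorem okS_102 : PoisOK 49 100 (((42079 : ℕ) : ℝ) / ((10000 : ℕ) : ℝ)) (thr 14 15) 24 102 stS_102 :=
  sxS_22 okS_101 ckS_102

theorem okS_103 : PoisOK 49 100 (((42079 : ℕ) : ℝ) / ((10000 : ℕ) : ℝ)) (thr 14 15) 24 103 stS_103 :=
  sxS_22 okS_102 ckS_103

theorem okS_104 : PoisOK 49 100 (((42079 : ℕ) : ℝ) / ((10000 : ℕ) : ℝ)) (thr 14 15) 24 104 stS_104 :=
  sxS_22 okS_103 ckS_104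

theorem okS_105 : PoisOK 49 100 (((42079 : ℕ) : ℝ) / ((10000 : ℕ) : ℝ)) (thr 14 15) 24 105 stS_105 :=
  sxS_22 okS_104 ckS_105

theorem okS_106 : PoisOK 49 100 (((42079 : ℕ) : ℝ) / ((10000 : ℕ) : ℝ)) (thr 14 15) 24 106 stS_106 :=
  sxS_22 okS_105 ckS_106

theorem okS_107 : PoisOK 49 100 (((42079 : ℕ) : ℝ) / ((10000 : ℕ) : ℝ)) (thr 14 15) 24 107 stS_107 :=
  sxS_22 okS_106 ckS_107

theorem okS_108 : PoisOK 49 100 (((42079 : ℕ) : ℝ) / ((10000 : ℕ) : ℝ)) (thr 14 15) 24 108 stS_108 :=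
  sxS_22 okS_107 ckS_108

theorem okS_109 : PoisOK 49 100 (((42079 : ℕ) : ℝ) / ((10000 : ℕ) : ℝ)) (thr 14 15) 24 109 stS_109 :=
  sxS_22 okS_108 ckS_109

theorem okS_110 : PoisOK 49 100 (((42079 : ℕ) : ℝ) / ((10000 : ℕ) : ℝ)) (thr 14 15) 24 110 stS_110 :=
  sxS_22 okS_109 ckS_110

theorem okS_111 : PoisOK 49 100 (((42079 : ℕ) : ℝ) / ((10000 : ℕ) : ℝ)) (thr 14 15) 24 111 stS_111 :=
  sxS_22 okS_110 ckS_111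

theorem okS_112 : PoisOK 49 100 (((42079 : ℕ) : ℝ) / ((10000 : ℕ) : ℝ)) (thr 14 15) 24 112 stS_112 :=
  sxS_22 okS_111 ckS_112

set_option maxRecDepth 100000 in
theorem inS : Nat.ble 1133544352878919699 (infoS 32 24 32 pw_14_15_70 stS_112) = true := by decide +kernel

/-- the box S -/
theorem boxS {κ d : ℝ} (h1 : 97/200 ≤ κ) (h2 : κ ≤ 49/100) (hd : 0 ≤ d) (h : d * κ ^ 2 ≤ 1) :
    ∑' T : GTree 112, poissonWeight d T * Mtree 3 (-κ) T ≤ 7/100 := by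
  have hκ : 0 < κ := lt_of_lt_of_le (by norm_num) h1
  have h3 : d * κ ≤ 200/97 := by
    have h4 : d * κ * κ ≤ 1 := by
      calc d * κ * κ = d * κ ^ 2 := by ring
        _ ≤ 1 := h
    have h5 : 0 ≤ d * κ := by positivity
    have h6 : d * κ * (97/200) ≤ 1 := (mul_le_mul_of_nonneg_left h1 h5).trans h4
    linarith
  refine (pois_M (by norm_num) (by norm_num) (by norm_num) ptS_2 (by norm_num) okS_112 inS hκ.le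
    (by push_cast; linarith) hd (by push_cast; linarith)).trans ?_
  norm_num

end NC

end Vale.Agent.P154.DE
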