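import Vale.Agent.P154.DE.EngD
import Vale.Agent.P154.DE.WqT
import Vale.Agent.P154.DE.StT
import Vale.Agent.P154.DE.Pw9_11_30
import Vale.Agent.P154.DE.Pw9_10_56
import Vale.Agent.P154.DE.Tk97_200_9_11_30_9_11_10
import Vale.Agent.P154.DE.Tk97_200_9_11_30_9_10_20
import Vale.Agent.P154.DE.Tk97_200_9_10_56_9_10_20

/-!
# Steps 0 to 36
-/

namespace Vale.Agent.P154.DE

set_option maxRecDepth 100000

theorem ckT_1 : stN 81 10 30 pw_9_11_30 stT_0 10 stT_1 wqT tk97_200_9_11_30_9_11_10 tk97_200_9_11_30_9_11_10E tk97_200_9_11_30_9_11_10V = true := by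
  decide +kernel

theorem ckT_2 : stN 81 10 30 pw_9_11_30 stT_1 10 stT_2 wqT tk97_200_9_11_30_9_11_10 tk97_200_9_11_30_9_11_10E tk97_200_9_11_30_9_11_10V = true := by
  decide +kernel

theorem ckT_3 : stN 81 10 30 pw_9_11_30 stT_2 10 stT_3 wqT tk97_200_9_11_30_9_11_10 tk97_200_9_11_30_9_11_10E tk97_200_9_11_30_9_11_10V = true := by
  decide +kernel

theorem ckT_4 : stN 81 10 30 pw_9_11_30 stT_3 10 stT_4 wqT tk97_200_9_11_30_9_11_10 tk97_200_9_11_30_9_11_10E tk97_200_9_11_30_9_11_10V = true := by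
  decide +kernel

theorem ckT_5 : stN 81 10 30 pw_9_11_30 stT_4 10 stT_5 wqT tk97_200_9_11_30_9_11_10 tk97_200_9_11_30_9_11_10E tk97_200_9_11_30_9_11_10V = true := by
  decide +kernel

theorem ckT_6 : stN 81 10 30 pw_9_11_30 stT_5 10 stT_6 wqT tk97_200_9_11_30_9_11_10 tk97_200_9_11_30_9_11_10E tk97_200_9_11_30_9_11_10V = true := by
  decide +kernel

theorem ckT_7 : stN 81 10 30 pw_9_11_30 stT_6 10 stT_7 wqT tk97_200_9_11_30_9_11_10 tk97_200_9_11_30_9_11_10E tk97_200_9_11_30_9_11_10V = true := by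
  decide +kernel

theorem ckT_8 : stN 81 10 30 pw_9_11_30 stT_7 10 stT_8 wqT tk97_200_9_11_30_9_11_10 tk97_200_9_11_30_9_11_10E tk97_200_9_11_30_9_11_10V = true := by
  decide +kernel

theorem ckT_9 : stN 81 10 30 pw_9_11_30 stT_8 10 stT_9 wqT tk97_200_9_11_30_9_11_10 tk97_200_9_11_30_9_11_10E tk97_200_9_11_30_9_11_10V = true := by
  decide +kernel

theorem ckT_10 : stN 81 10 30 pw_9_11_30 stT_9 10 stT_10 wqT tk97_200_9_11_30_9_11_10 tk97_200_9_11_30_9_11_10E tk97_200_9_11_30_9_11_10V = true := by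
  decide +kernel

theorem ckT_11 : stN 81 10 30 pw_9_11_30 stT_10 10 stT_11 wqT tk97_200_9_11_30_9_11_10 tk97_200_9_11_30_9_11_10E tk97_200_9_11_30_9_11_10V = true := by
  decide +kernel

theorem ckT_12 : stN 81 10 30 pw_9_11_30 stT_11 10 stT_12 wqT tk97_200_9_11_30_9_11_10 tk97_200_9_11_30_9_11_10E tk97_200_9_11_30_9_11_10V = true := by
  decide +kernel

theorem ckT_13 : stN 81 10 30 pw_9_11_30 stT_12 10 stT_13 wqT tk97_200_9_11_30_9_11_10 tk97_200_9_11_30_9_11_10E tk97_200_9_11_30_9_11_10V = true := by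
  decide +kernel

theorem ckT_14 : stN 81 10 30 pw_9_11_30 stT_13 10 stT_14 wqT tk97_200_9_11_30_9_11_10 tk97_200_9_11_30_9_11_10E tk97_200_9_11_30_9_11_10V = true := by
  decide +kernel

theorem ckT_15 : stN 81 10 30 pw_9_11_30 stT_14 10 stT_15 wqT tk97_200_9_11_30_9_11_10 tk97_200_9_11_30_9_11_10E tk97_200_9_11_30_9_11_10V = true := by
  decide +kernel

theorem ckT_16 : stN 81 10 30 pw_9_11_30 stT_15 10 stT_16 wqT tk97_200_9_11_30_9_11_10 tk97_200_9_11_30_9_11_10E tk97_200_9_11_30_9_11_10V = true := by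
  decide +kernel

theorem ckT_17 : stN 81 10 30 pw_9_11_30 stT_16 10 stT_17 wqT tk97_200_9_11_30_9_11_10 tk97_200_9_11_30_9_11_10E tk97_200_9_11_30_9_11_10V = true := by
  decide +kernel

theorem ckT_18 : stN 81 10 30 pw_9_11_30 stT_17 10 stT_18 wqT tk97_200_9_11_30_9_11_10 tk97_200_9_11_30_9_11_10E tk97_200_9_11_30_9_11_10V = true := by
  decide +kernel

theorem ckT_19 : stN 81 10 30 pw_9_11_30 stT_18 10 stT_19 wqT tk97_200_9_11_30_9_11_10 tk97_200_9_11_30_9_11_10E tk97_200_9_11_30_9_11_10V = true := by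
  decide +kernel

theorem ckT_20 : stN 81 10 30 pw_9_11_30 stT_19 10 stT_20 wqT tk97_200_9_11_30_9_11_10 tk97_200_9_11_30_9_11_10E tk97_200_9_11_30_9_11_10V = true := by
  decide +kernel

theorem ckT_21 : stN 81 10 30 pw_9_11_30 stT_20 10 stT_21 wqT tk97_200_9_11_30_9_11_10 tk97_200_9_11_30_9_11_10E tk97_200_9_11_30_9_11_10V = true := by
  decide +kernel

theorem ckT_22 : stN 81 10 30 pw_9_11_30 stT_21 10 stT_22 wqT tk97_200_9_11_30_9_11_10 tk97_200_9_11_30_9_11_10E tk97_200_9_11_30_9_11_10V = true := by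
  decide +kernel

theorem ckT_23 : stN 81 10 30 pw_9_11_30 stT_22 10 stT_23 wqT tk97_200_9_11_30_9_11_10 tk97_200_9_11_30_9_11_10E tk97_200_9_11_30_9_11_10V = true := by
  decide +kernel

theorem ckT_24 : stN 81 10 30 pw_9_11_30 stT_23 10 stT_24 wqT tk97_200_9_11_30_9_11_10 tk97_200_9_11_30_9_11_10E tk97_200_9_11_30_9_11_10V = true := by
  decide +kernel

theorem ckT_25 : stN 81 10 30 pw_9_11_30 stT_24 10 stT_25 wqT tk97_200_9_11_30_9_11_10 tk97_200_9_11_30_9_11_10E tk97_200_9_11_30_9_11_10V = true := by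
  decide +kernel

theorem ckT_26 : stN 81 10 30 pw_9_11_30 stT_25 10 stT_26 wqT tk97_200_9_11_30_9_11_10 tk97_200_9_11_30_9_11_10E tk97_200_9_11_30_9_11_10V = true := by
  decide +kernel

theorem ckT_27 : stN 81 10 30 pw_9_11_30 stT_26 10 stT_27 wqT tk97_200_9_11_30_9_11_10 tk97_200_9_11_30_9_11_10E tk97_200_9_11_30_9_11_10V = true := by
  decide +kernel

theorem ckT_28 : stN 81 10 30 pw_9_11_30 stT_27 10 stT_28 wqT tk97_200_9_11_30_9_11_10 tk97_200_9_11_30_9_11_10E tk97_200_9_11_30_9_11_10V = true := by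
  decide +kernel

theorem ckT_29 : stN 81 10 30 pw_9_11_30 stT_28 10 stT_29 wqT tk97_200_9_11_30_9_11_10 tk97_200_9_11_30_9_11_10E tk97_200_9_11_30_9_11_10V = true := by
  decide +kernel

theorem ckT_30 : stN 81 10 30 pw_9_11_30 stT_29 10 stT_30 wqT tk97_200_9_11_30_9_11_10 tk97_200_9_11_30_9_11_10E tk97_200_9_11_30_9_11_10V = true := by
  decide +kernel

theorem ckT_31 : stN 81 10 30 pw_9_11_30 stT_30 10 stT_31 wqT tk97_200_9_11_30_9_11_10 tk97_200_9_11_30_9_11_10E tk97_200_9_11_30_9_11_10V = true := by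
  decide +kernel

theorem ckT_32 : stN 81 10 30 pw_9_11_30 stT_31 10 stT_32 wqT tk97_200_9_11_30_9_11_10 tk97_200_9_11_30_9_11_10E tk97_200_9_11_30_9_11_10V = true := by
  decide +kernel

theorem ckT_33 : stN 81 10 30 pw_9_11_30 stT_32 10 stT_33 wqT tk97_200_9_11_30_9_11_10 tk97_200_9_11_30_9_11_10E tk97_200_9_11_30_9_11_10V = true := by
  decide +kernel

theorem ckT_34 : stN 81 10 30 pw_9_11_30 stT_33 10 stT_34 wqT tk97_200_9_11_30_9_11_10 tk97_200_9_11_30_9_11_10E tk97_200_9_11_30_9_11_10V = true := by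
  decide +kernel

theorem ckT_35 : stN 81 10 30 pw_9_11_30 stT_34 20 stT_35 wqT tk97_200_9_11_30_9_10_20 tk97_200_9_11_30_9_10_20E tk97_200_9_11_30_9_10_20V = true := by
  decide +kernel

theorem ckT_36 : stN 153 20 56 pw_9_10_56 stT_35 20 stT_36 wqT tk97_200_9_10_56_9_10_20 tk97_200_9_10_56_9_10_20E tk97_200_9_10_56_9_10_20V = true := by
  decide +kernel

end Vale.Agent.P154.DE
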