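import Vale.Agent.P154.DE.Pois2
import Vale.Agent.P154.DE.SpT0
import Vale.Agent.P154.DE.SpT1
import Vale.Agent.P154.DE.SpT2
import Vale.Agent.P154.DE.SpT3
import Vale.Agent.P154.DE.SpT4
import Vale.Agent.P154.DE.SpT5
import Vale.Agent.P154.DE.SpT6
import Vale.Agent.P154.DE.SpT7
import Vale.Agent.P154.DE.SpT8
import Vale.Agent.P154.DE.Cp9_11_30
import Vale.Agent.P154.DE.Cp9_10_56
import Vale.Agent.P154.DE.Cp14_15_70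
import Vale.Agent.P154.DE.Ctk97_200_9_11_30_9_11_10
import Vale.Agent.P154.DE.Ctk97_200_9_11_30_9_10_20
import Vale.Agent.P154.DE.Ctk97_200_9_10_56_9_10_20
import Vale.Agent.P154.DE.Ctk97_200_9_10_56_14_15_24
import Vale.Agent.P154.DE.Ctk97_200_14_15_70_14_15_24

/-!
# Chain of the box T: channel parameter at most 97/200, at least 12/25
-/

namespace Vale.Agent.P154.DE

noncomputable section NC

open Vale.Agent.P154.Up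
open scoped ENNReal NNReal

theorem ewT : ((15712466450221341 : ℕ) : ℝ) / ((1152921504606846976 : ℕ) : ℝ) ≤ Real.exp (-(((42956 : ℕ) : ℝ) / ((10000 : ℕ) : ℝ))) := by
  refine exp_low (x := 10739 / 20000) (u := 8553905073619 / 5000000000000) (by norm_num) (by norm_num) (by norm_num) ?_ ?_
  · norm_num [Finset.sum_range_succ, Nat.factorial]
  · norm_num

set_option maxRecDepth 100000 in
theorem woT : WtOK wqT (((42956 : ℕ) : ℝ) / ((10000 : ℕ) : ℝ)) :=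
  ⟨wts_ok (Dn := 42956) (Dd := 10000) (by norm_num) (by norm_num) (by norm_num) rfl ewT (by decide +kernel),
    by decide +kernel⟩

theorem ptT_0 : PT (thr 9 11) 30 32 pw_9_11_30 30 :=
  PT_of_chk (by norm_num) cp_9_11_30

theorem ptT_1 : PT (thr 9 10) 30 32 pw_9_10_56 56 :=
  PT_of_chk (by norm_num) cp_9_10_56

theorem ptT_2 : PT (thr 14 15) 30 32 pw_14_15_70 70 :=
  PT_of_chk (by norm_num) cp_14_15_70

theorem tbT_00 : TbOK 97 200 pw_9_11_30 30 pw_9_11_30 10 tk97_200_9_11_30_9_11_10 tk97_200_9_11_30_9_11_10E tk97_200_9_11_30_9_11_10V :=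
  ⟨c1tk97_200_9_11_30_9_11_10, (TabS.toTab_len _ _).trans c2tk97_200_9_11_30_9_11_10, c3tk97_200_9_11_30_9_11_10, c4tk97_200_9_11_30_9_11_10, c5tk97_200_9_11_30_9_11_10⟩

theorem sxT_00 {n S S' : ℕ} (hS : PoisOK 97 200 (((42956 : ℕ) : ℝ) / ((10000 : ℕ) : ℝ)) (thr 9 11) 10 n S)
    (h : stN 81 10 30 pw_9_11_30 S 10 S' wqT tk97_200_9_11_30_9_11_10 tk97_200_9_11_30_9_11_10E tk97_200_9_11_30_9_11_10V = true) :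
    PoisOK 97 200 (((42956 : ℕ) : ℝ) / ((10000 : ℕ) : ℝ)) (thr 9 11) 10 (n + 1) S' :=
  pois_step2 (by norm_num) (by norm_num) (by norm_num) (by norm_num) ptT_0 (ptT_0.mono (by norm_num))
    tbT_00 (by norm_num) (by norm_num) (by norm_num) (by norm_num) woT hS h

theorem tbT_01 : TbOK 97 200 pw_9_11_30 30 pw_9_10_56 20 tk97_200_9_11_30_9_10_20 tk97_200_9_11_30_9_10_20E tk97_200_9_11_30_9_10_20V :=
  ⟨c1tk97_200_9_11_30_9_10_20, (TabS.toTab_len _ _).trans c2tk97_200_9_11_30_9_10_20, c3tk97_200_9_11_30_9_10_20, c4tk97_200_9_11_30_9_10_20, c5tk97_200_9_11_30_9_10_20⟩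

theorem sxT_01 {n S S' : ℕ} (hS : PoisOK 97 200 (((42956 : ℕ) : ℝ) / ((10000 : ℕ) : ℝ)) (thr 9 11) 10 n S)
    (h : stN 81 10 30 pw_9_11_30 S 20 S' wqT tk97_200_9_11_30_9_10_20 tk97_200_9_11_30_9_10_20E tk97_200_9_11_30_9_10_20V = true) :
    PoisOK 97 200 (((42956 : ℕ) : ℝ) / ((10000 : ℕ) : ℝ)) (thr 9 10) 20 (n + 1) S' :=
  pois_step2 (by norm_num) (by norm_num) (by norm_num) (by norm_num) ptT_0 (ptT_1.mono (by norm_num))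
    tbT_01 (by norm_num) (by norm_num) (by norm_num) (by norm_num) woT hS h

theorem tbT_11 : TbOK 97 200 pw_9_10_56 56 pw_9_10_56 20 tk97_200_9_10_56_9_10_20 tk97_200_9_10_56_9_10_20E tk97_200_9_10_56_9_10_20V :=
  ⟨c1tk97_200_9_10_56_9_10_20, (TabS.toTab_len _ _).trans c2tk97_200_9_10_56_9_10_20, c3tk97_200_9_10_56_9_10_20, c4tk97_200_9_10_56_9_10_20, c5tk97_200_9_10_56_9_10_20⟩

theorem sxT_11 {n S S' : ℕ} (hS : PoisOK 97 200 (((42956 : ℕ) : ℝ) / ((10000 : ℕ) : ℝ)) (thr 9 10) 20 n S)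
    (h : stN 153 20 56 pw_9_10_56 S 20 S' wqT tk97_200_9_10_56_9_10_20 tk97_200_9_10_56_9_10_20E tk97_200_9_10_56_9_10_20V = true) :
    PoisOK 97 200 (((42956 : ℕ) : ℝ) / ((10000 : ℕ) : ℝ)) (thr 9 10) 20 (n + 1) S' :=
  pois_step2 (by norm_num) (by norm_num) (by norm_num) (by norm_num) ptT_1 (ptT_1.mono (by norm_num))
    tbT_11 (by norm_num) (by norm_num) (by norm_num) (by norm_num) woT hS h

theorem tbT_12 : TbOK 97 200 pw_9_10_56 56 pw_14_15_70 24 tk97_200_9_10_56_14_15_24 tk97_200_9_10_56_14_15_24E tk97_200_9_10_56_14_15_24V :=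
  ⟨c1tk97_200_9_10_56_14_15_24, (TabS.toTab_len _ _).trans c2tk97_200_9_10_56_14_15_24, c3tk97_200_9_10_56_14_15_24, c4tk97_200_9_10_56_14_15_24, c5tk97_200_9_10_56_14_15_24⟩

theorem sxT_12 {n S S' : ℕ} (hS : PoisOK 97 200 (((42956 : ℕ) : ℝ) / ((10000 : ℕ) : ℝ)) (thr 9 10) 20 n S)
    (h : stN 153 20 56 pw_9_10_56 S 24 S' wqT tk97_200_9_10_56_14_15_24 tk97_200_9_10_56_14_15_24E tk97_200_9_10_56_14_15_24V = true) :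
    PoisOK 97 200 (((42956 : ℕ) : ℝ) / ((10000 : ℕ) : ℝ)) (thr 14 15) 24 (n + 1) S' :=
  pois_step2 (by norm_num) (by norm_num) (by norm_num) (by norm_num) ptT_1 (ptT_2.mono (by norm_num))
    tbT_12 (by norm_num) (by norm_num) (by norm_num) (by norm_num) woT hS h

theorem tbT_22 : TbOK 97 200 pw_14_15_70 70 pw_14_15_70 24 tk97_200_14_15_70_14_15_24 tk97_200_14_15_70_14_15_24E tk97_200_14_15_70_14_15_24V :=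
  ⟨c1tk97_200_14_15_70_14_15_24, (TabS.toTab_len _ _).trans c2tk97_200_14_15_70_14_15_24, c3tk97_200_14_15_70_14_15_24, c4tk97_200_14_15_70_14_15_24, c5tk97_200_14_15_70_14_15_24⟩

theorem sxT_22 {n S S' : ℕ} (hS : PoisOK 97 200 (((42956 : ℕ) : ℝ) / ((10000 : ℕ) : ℝ)) (thr 14 15) 24 n S)
    (h : stN 189 24 70 pw_14_15_70 S 24 S' wqT tk97_200_14_15_70_14_15_24 tk97_200_14_15_70_14_15_24E tk97_200_14_15_70_14_15_24V = true) :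
    PoisOK 97 200 (((42956 : ℕ) : ℝ) / ((10000 : ℕ) : ℝ)) (thr 14 15) 24 (n + 1) S' :=
  pois_step2 (by norm_num) (by norm_num) (by norm_num) (by norm_num) ptT_2 (ptT_2.mono (by norm_num))
    tbT_22 (by norm_num) (by norm_num) (by norm_num) (by norm_num) woT hS h

theorem okT_0 : PoisOK 97 200 (((42956 : ℕ) : ℝ) / ((10000 : ℕ) : ℝ)) (thr 9 11) 10 0 stT_0 :=
  poisOK_zero _ _ _ _ _

theorem okT_1 : PoisOK 97 200 (((42956 : ℕ) : ℝ) / ((10000 : ℕ) : ℝ)) (thr 9 11) 10 1 stT_1 :=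
  sxT_00 okT_0 ckT_1

theorem okT_2 : PoisOK 97 200 (((42956 : ℕ) : ℝ) / ((10000 : ℕ) : ℝ)) (thr 9 11) 10 2 stT_2 :=
  sxT_00 okT_1 ckT_2

theorem okT_3 : PoisOK 97 200 (((42956 : ℕ) : ℝ) / ((10000 : ℕ) : ℝ)) (thr 9 11) 10 3 stT_3 :=
  sxT_00 okT_2 ckT_3

theorem okT_4 : PoisOK 97 200 (((42956 : ℕ) : ℝ) / ((10000 : ℕ) : ℝ)) (thr 9 11) 10 4 stT_4 :=
  sxT_00 okT_3 ckT_4

theorem okT_5 : PoisOK 97 200 (((42956 : ℕ) : ℝ) / ((10000 : ℕ) : ℝ)) (thr 9 11) 10 5 stT_5 :=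
  sxT_00 okT_4 ckT_5

theorem okT_6 : PoisOK 97 200 (((42956 : ℕ) : ℝ) / ((10000 : ℕ) : ℝ)) (thr 9 11) 10 6 stT_6 :=
  sxT_00 okT_5 ckT_6

theorem okT_7 : PoisOK 97 200 (((42956 : ℕ) : ℝ) / ((10000 : ℕ) : ℝ)) (thr 9 11) 10 7 stT_7 :=
  sxT_00 okT_6 ckT_7

theorem okT_8 : PoisOK 97 200 (((42956 : ℕ) : ℝ) / ((10000 : ℕ) : ℝ)) (thr 9 11) 10 8 stT_8 :=
  sxT_00 okT_7 ckT_8

theorem okT_9 : PoisOK 97 200 (((42956 : ℕ) : ℝ) / ((10000 : ℕ) : ℝ)) (thr 9 11) 10 9 stT_9 :=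
  sxT_00 okT_8 ckT_9

theorem okT_10 : PoisOK 97 200 (((42956 : ℕ) : ℝ) / ((10000 : ℕ) : ℝ)) (thr 9 11) 10 10 stT_10 :=
  sxT_00 okT_9 ckT_10

theorem okT_11 : PoisOK 97 200 (((42956 : ℕ) : ℝ) / ((10000 : ℕ) : ℝ)) (thr 9 11) 10 11 stT_11 :=
  sxT_00 okT_10 ckT_11

theorem okT_12 : PoisOK 97 200 (((42956 : ℕ) : ℝ) / ((10000 : ℕ) : ℝ)) (thr 9 11) 10 12 stT_12 :=
  sxT_00 okT_11 ckT_12

theorem okT_13 : PoisOK 97 200 (((42956 : ℕ) : ℝ) / ((10000 : ℕ) : ℝ)) (thr 9 11) 10 13 stT_13 :=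
  sxT_00 okT_12 ckT_13

theorem okT_14 : PoisOK 97 200 (((42956 : ℕ) : ℝ) / ((10000 : ℕ) : ℝ)) (thr 9 11) 10 14 stT_14 :=
  sxT_00 okT_13 ckT_14

theorem okT_15 : PoisOK 97 200 (((42956 : ℕ) : ℝ) / ((10000 : ℕ) : ℝ)) (thr 9 11) 10 15 stT_15 :=
  sxT_00 okT_14 ckT_15

theorem okT_16 : PoisOK 97 200 (((42956 : ℕ) : ℝ) / ((10000 : ℕ) : ℝ)) (thr 9 11) 10 16 stT_16 :=
  sxT_00 okT_15 ckT_16

theorem okT_17 : PoisOK 97 200 (((42956 : ℕ) : ℝ) / ((10000 : ℕ) : ℝ)) (thr 9 11) 10 17 stT_17 :=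
  sxT_00 okT_16 ckT_17

theorem okT_18 : PoisOK 97 200 (((42956 : ℕ) : ℝ) / ((10000 : ℕ) : ℝ)) (thr 9 11) 10 18 stT_18 :=
  sxT_00 okT_17 ckT_18

theorem okT_19 : PoisOK 97 200 (((42956 : ℕ) : ℝ) / ((10000 : ℕ) : ℝ)) (thr 9 11) 10 19 stT_19 :=
  sxT_00 okT_18 ckT_19

theorem okT_20 : PoisOK 97 200 (((42956 : ℕ) : ℝ) / ((10000 : ℕ) : ℝ)) (thr 9 11) 10 20 stT_20 :=
  sxT_00 okT_19 ckT_20

theorem okT_21 : PoisOK 97 200 (((42956 : ℕ) : ℝ) / ((10000 : ℕ) : ℝ)) (thr 9 11) 10 21 stT_21 :=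
  sxT_00 okT_20 ckT_21

theorem okT_22 : PoisOK 97 200 (((42956 : ℕ) : ℝ) / ((10000 : ℕ) : ℝ)) (thr 9 11) 10 22 stT_22 :=
  sxT_00 okT_21 ckT_22

theorem okT_23 : PoisOK 97 200 (((42956 : ℕ) : ℝ) / ((10000 : ℕ) : ℝ)) (thr 9 11) 10 23 stT_23 :=
  sxT_00 okT_22 ckT_23

theorem okT_24 : PoisOK 97 200 (((42956 : ℕ) : ℝ) / ((10000 : ℕ) : ℝ)) (thr 9 11) 10 24 stT_24 :=
  sxT_00 okT_23 ckT_24

theorem okT_25 : PoisOK 97 200 (((42956 : ℕ) : ℝ) / ((10000 : ℕ) : ℝ)) (thr 9 11) 10 25 stT_25 :=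
  sxT_00 okT_24 ckT_25

theorem okT_26 : PoisOK 97 200 (((42956 : ℕ) : ℝ) / ((10000 : ℕ) : ℝ)) (thr 9 11) 10 26 stT_26 :=
  sxT_00 okT_25 ckT_26

theorem okT_27 : PoisOK 97 200 (((42956 : ℕ) : ℝ) / ((10000 : ℕ) : ℝ)) (thr 9 11) 10 27 stT_27 :=
  sxT_00 okT_26 ckT_27

theorem okT_28 : PoisOK 97 200 (((42956 : ℕ) : ℝ) / ((10000 : ℕ) : ℝ)) (thr 9 11) 10 28 stT_28 :=
  sxT_00 okT_27 ckT_28

theorem okT_29 : PoisOK 97 200 (((42956 : ℕ) : ℝ) / ((10000 : ℕ) : ℝ)) (thr 9 11) 10 29 stT_29 :=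
  sxT_00 okT_28 ckT_29

theorem okT_30 : PoisOK 97 200 (((42956 : ℕ) : ℝ) / ((10000 : ℕ) : ℝ)) (thr 9 11) 10 30 stT_30 :=
  sxT_00 okT_29 ckT_30

theorem okT_31 : PoisOK 97 200 (((42956 : ℕ) : ℝ) / ((10000 : ℕ) : ℝ)) (thr 9 11) 10 31 stT_31 :=
  sxT_00 okT_30 ckT_31

theorem okT_32 : PoisOK 97 200 (((42956 : ℕ) : ℝ) / ((10000 : ℕ) : ℝ)) (thr 9 11) 10 32 stT_32 :=
  sxT_00 okT_31 ckT_32

theorem okT_33 : PoisOK 97 200 (((42956 : ℕ) : ℝ) / ((10000 : ℕ) : ℝ)) (thr 9 11) 10 33 stT_33 :=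
  sxT_00 okT_32 ckT_33

theorem okT_34 : PoisOK 97 200 (((42956 : ℕ) : ℝ) / ((10000 : ℕ) : ℝ)) (thr 9 11) 10 34 stT_34 :=
  sxT_00 okT_33 ckT_34

theorem okT_35 : PoisOK 97 200 (((42956 : ℕ) : ℝ) / ((10000 : ℕ) : ℝ)) (thr 9 10) 20 35 stT_35 :=
  sxT_01 okT_34 ckT_35

theorem okT_36 : PoisOK 97 200 (((42956 : ℕ) : ℝ) / ((10000 : ℕ) : ℝ)) (thr 9 10) 20 36 stT_36 :=
  sxT_11 okT_35 ckT_36

theorem okT_37 : PoisOK 97 200 (((42956 : ℕ) : ℝ) / ((10000 : ℕ) : ℝ)) (thr 9 10) 20 37 stT_37 :=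
  sxT_11 okT_36 ckT_37

theorem okT_38 : PoisOK 97 200 (((42956 : ℕ) : ℝ) / ((10000 : ℕ) : ℝ)) (thr 9 10) 20 38 stT_38 :=
  sxT_11 okT_37 ckT_38

theorem okT_39 : PoisOK 97 200 (((42956 : ℕ) : ℝ) / ((10000 : ℕ) : ℝ)) (thr 9 10) 20 39 stT_39 :=
  sxT_11 okT_38 ckT_39

theorem okT_40 : PoisOK 97 200 (((42956 : ℕ) : ℝ) / ((10000 : ℕ) : ℝ)) (thr 9 10) 20 40 stT_40 :=
  sxT_11 okT_39 ckT_40

theorem okT_41 : PoisOK 97 200 (((42956 : ℕ) : ℝ) / ((10000 : ℕ) : ℝ)) (thr 9 10) 20 41 stT_41 :=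
  sxT_11 okT_40 ckT_41

theorem okT_42 : PoisOK 97 200 (((42956 : ℕ) : ℝ) / ((10000 : ℕ) : ℝ)) (thr 9 10) 20 42 stT_42 :=
  sxT_11 okT_41 ckT_42

theorem okT_43 : PoisOK 97 200 (((42956 : ℕ) : ℝ) / ((10000 : ℕ) : ℝ)) (thr 9 10) 20 43 stT_43 :=
  sxT_11 okT_42 ckT_43

theorem okT_44 : PoisOK 97 200 (((42956 : ℕ) : ℝ) / ((10000 : ℕ) : ℝ)) (thr 9 10) 20 44 stT_44 :=
  sxT_11 okT_43 ckT_44

theorem okT_45 : PoisOK 97 200 (((42956 : ℕ) : ℝ) / ((10000 : ℕ) : ℝ)) (thr 9 10) 20 45 stT_45 :=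
  sxT_11 okT_44 ckT_45

theorem okT_46 : PoisOK 97 200 (((42956 : ℕ) : ℝ) / ((10000 : ℕ) : ℝ)) (thr 9 10) 20 46 stT_46 :=
  sxT_11 okT_45 ckT_46

theorem okT_47 : PoisOK 97 200 (((42956 : ℕ) : ℝ) / ((10000 : ℕ) : ℝ)) (thr 9 10) 20 47 stT_47 :=
  sxT_11 okT_46 ckT_47

theorem okT_48 : PoisOK 97 200 (((42956 : ℕ) : ℝ) / ((10000 : ℕ) : ℝ)) (thr 9 10) 20 48 stT_48 :=
  sxT_11 okT_47 ckT_48

theorem okT_49 : PoisOK 97 200 (((42956 : ℕ) : ℝ) / ((10000 : ℕ) : ℝ)) (thr 9 10) 20 49 stT_49 :=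
  sxT_11 okT_48 ckT_49

theorem okT_50 : PoisOK 97 200 (((42956 : ℕ) : ℝ) / ((10000 : ℕ) : ℝ)) (thr 9 10) 20 50 stT_50 :=
  sxT_11 okT_49 ckT_50

theorem okT_51 : PoisOK 97 200 (((42956 : ℕ) : ℝ) / ((10000 : ℕ) : ℝ)) (thr 9 10) 20 51 stT_51 :=
  sxT_11 okT_50 ckT_51

theorem okT_52 : PoisOK 97 200 (((42956 : ℕ) : ℝ) / ((10000 : ℕ) : ℝ)) (thr 9 10) 20 52 stT_52 :=
  sxT_11 okT_51 ckT_52

theorem okT_53 : PoisOK 97 200 (((42956 : ℕ) : ℝ) / ((10000 : ℕ) : ℝ)) (thr 9 10) 20 53 stT_53 :=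
  sxT_11 okT_52 ckT_53

theorem okT_54 : PoisOK 97 200 (((42956 : ℕ) : ℝ) / ((10000 : ℕ) : ℝ)) (thr 9 10) 20 54 stT_54 :=
  sxT_11 okT_53 ckT_54

theorem okT_55 : PoisOK 97 200 (((42956 : ℕ) : ℝ) / ((10000 : ℕ) : ℝ)) (thr 9 10) 20 55 stT_55 :=
  sxT_11 okT_54 ckT_55

theorem okT_56 : PoisOK 97 200 (((42956 : ℕ) : ℝ) / ((10000 : ℕ) : ℝ)) (thr 9 10) 20 56 stT_56 :=
  sxT_11 okT_55 ckT_56

theorem okT_57 : PoisOK 97 200 (((42956 : ℕ) : ℝ) / ((10000 : ℕ) : ℝ)) (thr 9 10) 20 57 stT_57 :=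
  sxT_11 okT_56 ckT_57

theorem okT_58 : PoisOK 97 200 (((42956 : ℕ) : ℝ) / ((10000 : ℕ) : ℝ)) (thr 9 10) 20 58 stT_58 :=
  sxT_11 okT_57 ckT_58

theorem okT_59 : PoisOK 97 200 (((42956 : ℕ) : ℝ) / ((10000 : ℕ) : ℝ)) (thr 9 10) 20 59 stT_59 :=
  sxT_11 okT_58 ckT_59

theorem okT_60 : PoisOK 97 200 (((42956 : ℕ) : ℝ) / ((10000 : ℕ) : ℝ)) (thr 9 10) 20 60 stT_60 :=
  sxT_11 okT_59 ckT_60

theorem okT_61 : PoisOK 97 200 (((42956 : ℕ) : ℝ) / ((10000 : ℕ) : ℝ)) (thr 9 10) 20 61 stT_61 :=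
  sxT_11 okT_60 ckT_61

theorem okT_62 : PoisOK 97 200 (((42956 : ℕ) : ℝ) / ((10000 : ℕ) : ℝ)) (thr 9 10) 20 62 stT_62 :=
  sxT_11 okT_61 ckT_62

theorem okT_63 : PoisOK 97 200 (((42956 : ℕ) : ℝ) / ((10000 : ℕ) : ℝ)) (thr 9 10) 20 63 stT_63 :=
  sxT_11 okT_62 ckT_63

theorem okT_64 : PoisOK 97 200 (((42956 : ℕ) : ℝ) / ((10000 : ℕ) : ℝ)) (thr 9 10) 20 64 stT_64 :=
  sxT_11 okT_63 ckT_64

theorem okT_65 : PoisOK 97 200 (((42956 : ℕ) : ℝ) / ((10000 : ℕ) : ℝ)) (thr 9 10) 20 65 stT_65 :=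
  sxT_11 okT_64 ckT_65

theorem okT_66 : PoisOK 97 200 (((42956 : ℕ) : ℝ) / ((10000 : ℕ) : ℝ)) (thr 9 10) 20 66 stT_66 :=
  sxT_11 okT_65 ckT_66

theorem okT_67 : PoisOK 97 200 (((42956 : ℕ) : ℝ) / ((10000 : ℕ) : ℝ)) (thr 9 10) 20 67 stT_67 :=
  sxT_11 okT_66 ckT_67

theorem okT_68 : PoisOK 97 200 (((42956 : ℕ) : ℝ) / ((10000 : ℕ) : ℝ)) (thr 9 10) 20 68 stT_68 :=
  sxT_11 okT_67 ckT_68

theorem okT_69 : PoisOK 97 200 (((42956 : ℕ) : ℝ) / ((10000 : ℕ) : ℝ)) (thr 9 10) 20 69 stT_69 :=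
  sxT_11 okT_68 ckT_69

theorem okT_70 : PoisOK 97 200 (((42956 : ℕ) : ℝ) / ((10000 : ℕ) : ℝ)) (thr 9 10) 20 70 stT_70 :=
  sxT_11 okT_69 ckT_70

theorem okT_71 : PoisOK 97 200 (((42956 : ℕ) : ℝ) / ((10000 : ℕ) : ℝ)) (thr 9 10) 20 71 stT_71 :=
  sxT_11 okT_70 ckT_71

theorem okT_72 : PoisOK 97 200 (((42956 : ℕ) : ℝ) / ((10000 : ℕ) : ℝ)) (thr 9 10) 20 72 stT_72 :=
  sxT_11 okT_71 ckT_72

theorem okT_73 : PoisOK 97 200 (((42956 : ℕ) : ℝ) / ((10000 : ℕ) : ℝ)) (thr 9 10) 20 73 stT_73 :=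
  sxT_11 okT_72 ckT_73

theorem okT_74 : PoisOK 97 200 (((42956 : ℕ) : ℝ) / ((10000 : ℕ) : ℝ)) (thr 9 10) 20 74 stT_74 :=
  sxT_11 okT_73 ckT_74

theorem okT_75 : PoisOK 97 200 (((42956 : ℕ) : ℝ) / ((10000 : ℕ) : ℝ)) (thr 9 10) 20 75 stT_75 :=
  sxT_11 okT_74 ckT_75

theorem okT_76 : PoisOK 97 200 (((42956 : ℕ) : ℝ) / ((10000 : ℕ) : ℝ)) (thr 9 10) 20 76 stT_76 :=
  sxT_11 okT_75 ckT_76

theorem okT_77 : PoisOK 97 200 (((42956 : ℕ) : ℝ) / ((10000 : ℕ) : ℝ)) (thr 9 10) 20 77 stT_77 :=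
  sxT_11 okT_76 ckT_77

theorem okT_78 : PoisOK 97 200 (((42956 : ℕ) : ℝ) / ((10000 : ℕ) : ℝ)) (thr 9 10) 20 78 stT_78 :=
  sxT_11 okT_77 ckT_78

theorem okT_79 : PoisOK 97 200 (((42956 : ℕ) : ℝ) / ((10000 : ℕ) : ℝ)) (thr 9 10) 20 79 stT_79 :=
  sxT_11 okT_78 ckT_79

theorem okT_80 : PoisOK 97 200 (((42956 : ℕ) : ℝ) / ((10000 : ℕ) : ℝ)) (thr 9 10) 20 80 stT_80 :=
  sxT_11 okT_79 ckT_80

theorem okT_81 : PoisOK 97 200 (((42956 : ℕ) : ℝ) / ((10000 : ℕ) : ℝ)) (thr 9 10) 20 81 stT_81 :=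
  sxT_11 okT_80 ckT_81

theorem okT_82 : PoisOK 97 200 (((42956 : ℕ) : ℝ) / ((10000 : ℕ) : ℝ)) (thr 14 15) 24 82 stT_82 :=
  sxT_12 okT_81 ckT_82

theorem okT_83 : PoisOK 97 200 (((42956 : ℕ) : ℝ) / ((10000 : ℕ) : ℝ)) (thr 14 15) 24 83 stT_83 :=
  sxT_22 okT_82 ckT_83

theorem okT_84 : PoisOK 97 200 (((42956 : ℕ) : ℝ) / ((10000 : ℕ) : ℝ)) (thr 14 15) 24 84 stT_84 :=
  sxT_22 okT_83 ckT_84

theorem okT_85 : PoisOK 97 200 (((42956 : ℕ) : ℝ) / ((10000 : ℕ) : ℝ)) (thr 14 15) 24 85 stT_85 :=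
  sxT_22 okT_84 ckT_85

theorem okT_86 : PoisOK 97 200 (((42956 : ℕ) : ℝ) / ((10000 : ℕ) : ℝ)) (thr 14 15) 24 86 stT_86 :=
  sxT_22 okT_85 ckT_86

theorem okT_87 : PoisOK 97 200 (((42956 : ℕ) : ℝ) / ((10000 : ℕ) : ℝ)) (thr 14 15) 24 87 stT_87 :=
  sxT_22 okT_86 ckT_87

theorem okT_88 : PoisOK 97 200 (((42956 : ℕ) : ℝ) / ((10000 : ℕ) : ℝ)) (thr 14 15) 24 88 stT_88 :=
  sxT_22 okT_87 ckT_88

theorem okT_89 : PoisOK 97 200 (((42956 : ℕ) : ℝ) / ((10000 : ℕ) : ℝ)) (thr 14 15) 24 89 stT_89 :=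
  sxT_22 okT_88 ckT_89

theorem okT_90 : PoisOK 97 200 (((42956 : ℕ) : ℝ) / ((10000 : ℕ) : ℝ)) (thr 14 15) 24 90 stT_90 :=
  sxT_22 okT_89 ckT_90

theorem okT_91 : PoisOK 97 200 (((42956 : ℕ) : ℝ) / ((10000 : ℕ) : ℝ)) (thr 14 15) 24 91 stT_91 :=
  sxT_22 okT_90 ckT_91

theorem okT_92 : PoisOK 97 200 (((42956 : ℕ) : ℝ) / ((10000 : ℕ) : ℝ)) (thr 14 15) 24 92 stT_92 :=
  sxT_22 okT_91 ckT_92

theorem okT_93 : PoisOK 97 200 (((42956 : ℕ) : ℝ) / ((10000 : ℕ) : ℝ)) (thr 14 15) 24 93 stT_93 :=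
  sxT_22 okT_92 ckT_93

theorem okT_94 : PoisOK 97 200 (((42956 : ℕ) : ℝ) / ((10000 : ℕ) : ℝ)) (thr 14 15) 24 94 stT_94 :=
  sxT_22 okT_93 ckT_94

theorem okT_95 : PoisOK 97 200 (((42956 : ℕ) : ℝ) / ((10000 : ℕ) : ℝ)) (thr 14 15) 24 95 stT_95 :=
  sxT_22 okT_94 ckT_95

theorem okT_96 : PoisOK 97 200 (((42956 : ℕ) : ℝ) / ((10000 : ℕ) : ℝ)) (thr 14 15) 24 96 stT_96 :=
  sxT_22 okT_95 ckT_96

theorem okT_97 : PoisOK 97 200 (((42956 : ℕ) : ℝ) / ((10000 : ℕ) : ℝ)) (thr 14 15) 24 97 stT_97 :=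
  sxT_22 okT_96 ckT_97

theorem okT_98 : PoisOK 97 200 (((42956 : ℕ) : ℝ) / ((10000 : ℕ) : ℝ)) (thr 14 15) 24 98 stT_98 :=
  sxT_22 okT_97 ckT_98

theorem okT_99 : PoisOK 97 200 (((42956 : ℕ) : ℝ) / ((10000 : ℕ) : ℝ)) (thr 14 15) 24 99 stT_99 :=
  sxT_22 okT_98 ckT_99

theorem okT_100 : PoisOK 97 200 (((42956 : ℕ) : ℝ) / ((10000 : ℕ) : ℝ)) (thr 14 15) 24 100 stT_100 :=
  sxT_22 okT_99 ckT_100

theorem okT_101 : PoisOK 97 200 (((42956 : ℕ) : ℝ) / ((10000 : ℕ) : ℝ)) (thr 14 15) 24 101 stT_101 :=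
  sxT_22 okT_100 ckT_101

theorem okT_102 : PoisOK 97 200 (((42956 : ℕ) : ℝ) / ((10000 : ℕ) : ℝ)) (thr 14 15) 24 102 stT_102 :=
  sxT_22 okT_101 ckT_102

theorem okT_103 : PoisOK 97 200 (((42956 : ℕ) : ℝ) / ((10000 : ℕ) : ℝ)) (thr 14 15) 24 103 stT_103 :=
  sxT_22 okT_102 ckT_103

theorem okT_104 : PoisOK 97 200 (((42956 : ℕ) : ℝ) / ((10000 : ℕ) : ℝ)) (thr 14 15) 24 104 stT_104 :=
  sxT_22 okT_103 ckT_104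

theorem okT_105 : PoisOK 97 200 (((42956 : ℕ) : ℝ) / ((10000 : ℕ) : ℝ)) (thr 14 15) 24 105 stT_105 :=
  sxT_22 okT_104 ckT_105

theorem okT_106 : PoisOK 97 200 (((42956 : ℕ) : ℝ) / ((10000 : ℕ) : ℝ)) (thr 14 15) 24 106 stT_106 :=
  sxT_22 okT_105 ckT_106

theorem okT_107 : PoisOK 97 200 (((42956 : ℕ) : ℝ) / ((10000 : ℕ) : ℝ)) (thr 14 15) 24 107 stT_107 :=
  sxT_22 okT_106 ckT_107

theorem okT_108 : PoisOK 97 200 (((42956 : ℕ) : ℝ) / ((10000 : ℕ) : ℝ)) (thr 14 15) 24 108 stT_108 :=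
  sxT_22 okT_107 ckT_108

theorem okT_109 : PoisOK 97 200 (((42956 : ℕ) : ℝ) / ((10000 : ℕ) : ℝ)) (thr 14 15) 24 109 stT_109 :=
  sxT_22 okT_108 ckT_109

theorem okT_110 : PoisOK 97 200 (((42956 : ℕ) : ℝ) / ((10000 : ℕ) : ℝ)) (thr 14 15) 24 110 stT_110 :=
  sxT_22 okT_109 ckT_110

theorem okT_111 : PoisOK 97 200 (((42956 : ℕ) : ℝ) / ((10000 : ℕ) : ℝ)) (thr 14 15) 24 111 stT_111 :=
  sxT_22 okT_110 ckT_111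

set_option maxRecDepth 100000 in
theorem inT : Nat.ble 1133937787342366786 (infoS 32 24 32 pw_14_15_70 stT_111) = true := by decide +kernel

/-- the box T -/
theorem boxT {κ d : ℝ} (h1 : 12/25 ≤ κ) (h2 : κ ≤ 97/200) (hd : 0 ≤ d) (h : d * κ ^ 2 ≤ 1) :
    ∑' T : GTree 111, poissonWeight d T * Mtree 3 (-κ) T ≤ 7/100 := by
  have hκ : 0 < κ := lt_of_lt_of_le (by norm_num) h1
  have h3 : d * κ ≤ 25/12 := by
    have h4 : d * κ * κ ≤ 1 := by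
      calc d * κ * κ = d * κ ^ 2 := by ring
        _ ≤ 1 := h
    have h5 : 0 ≤ d * κ := by positivity
    have h6 : d * κ * (12/25) ≤ 1 := (mul_le_mul_of_nonneg_left h1 h5).trans h4
    linarith
  refine (pois_M (by norm_num) (by norm_num) (by norm_num) ptT_2 (by norm_num) okT_111 inT hκ.le
    (by push_cast; linarith) hd (by push_cast; linarith)).trans ?_
  norm_num

end NC

end Vale.Agent.P154.DE
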